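import Mathlib

set_option linter.all false

/-!
# P365-T2: scalar half of the local law error of the entropy functional (775, (2b)); helper942

`G u = u log (u + d)`, `lh u = log (1 + u/d) + u/(u+d) = G' u - log d`, `phi u = u²/(u+d)`.
`lh_move`: if `u = N/(r M)`, `u0 = N0/(r M0)`, `|√N - √N0| ≤ a`, `|√M - √M0| ≤ b` then
`|lh u - lh u0| √N0 ≤ 2 (log (1/d) + 4) (a + b √(r u0))`.
-/

namespace P365T2.H942.Lh

variable {d u u0 : ℝ}

/-- `u log (u + d)` -/
noncomputable def G (d u : ℝ) : ℝ := u * Real.log (u + d)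

/-- `G' - log d` -/
noncomputable def lh (d u : ℝ) : ℝ := Real.log (1 + u / d) + u / (u + d)

/-- `u G' - G` -/
noncomputable def phi (d u : ℝ) : ℝ := u ^ 2 / (u + d)

theorem log_one_add_div (hd : 0 < d) (hu : 0 ≤ u) :
    Real.log (1 + u / d) = Real.log (u + d) - Real.log d := by
  rw [← Real.log_div (by linarith) hd.ne']
  congr 1
  field_simp
  ring

theorem lh_eq (hd : 0 < d) (hu : 0 ≤ u) :
    lh d u = Real.log (u + d) - Real.log d + u / (u + d) := by
  unfold lh
  rw [log_one_add_div hd hu]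

theorem hasDerivAt_G (hd : 0 < d) (hu : 0 ≤ u) : HasDerivAt (G d) (Real.log d + lh d u) u := by
  have h1 : HasDerivAt (fun x : ℝ => x + d) 1 u := (hasDerivAt_id u).add_const d
  have h2 := h1.log (by linarith : u + d ≠ 0)
  have h3 := (hasDerivAt_id u).mul h2
  refine h3.congr_deriv ?_
  rw [lh_eq hd hu]
  simp only [id]
  ring

theorem hasDerivAt_lh (hd : 0 < d) (hu : 0 ≤ u) :
    HasDerivAt (lh d) ((u + 2 * d) / (u + d) ^ 2) u := by
  have hne : u + d ≠ 0 := by linarith
  have h1 : HasDerivAt (fun x : ℝ => 1 + x / d) (1 / d) u :=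
    ((hasDerivAt_id u).div_const d).const_add 1
  have hpos : 0 < 1 + u / d := by
    have : 0 ≤ u / d := div_nonneg hu hd.le
    linarith
  have h2 := h1.log hpos.ne'
  have h3 : HasDerivAt (fun x : ℝ => x + d) 1 u := (hasDerivAt_id u).add_const d
  have h4 := (hasDerivAt_id u).div h3 hne
  have h5 := h2.add h4
  refine h5.congr_deriv ?_
  simp only [id]
  have h6 : 1 / d / (1 + u / d) = 1 / (u + d) := by
    field_simp
    ring
  rw [h6]
  field_simp
  ring

theorem hasDerivAt_phi (hd : 0 < d) (hu : 0 ≤ u) :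
    HasDerivAt (phi d) (1 - d ^ 2 / (u + d) ^ 2) u := by
  have hne : u + d ≠ 0 := by linarith
  have h3 : HasDerivAt (fun x : ℝ => x + d) 1 u := (hasDerivAt_id u).add_const d
  have h4 := (hasDerivAt_pow 2 u).div h3 hne
  refine h4.congr_deriv ?_
  field_simp
  ring

theorem dlh_le (hd : 0 < d) (hu : 0 ≤ u) : (u + 2 * d) / (u + d) ^ 2 ≤ 2 / (u + d) := by
  have h : 0 < u + d := by linarith
  rw [div_le_div_iff₀ (by positivity) h]
  nlinarith

theorem dlh_nonneg (hd : 0 < d) (hu : 0 ≤ u) : 0 ≤ (u + 2 * d) / (u + d) ^ 2 := by positivity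

theorem dphi_nonneg (hd : 0 < d) (hu : 0 ≤ u) : 0 ≤ 1 - d ^ 2 / (u + d) ^ 2 := by
  have h : 0 < u + d := by linarith
  have h1 : d ^ 2 / (u + d) ^ 2 ≤ 1 := by
    rw [div_le_one (by positivity)]
    nlinarith
  linarith

theorem dphi_le_one (hd : 0 < d) : 1 - d ^ 2 / (u + d) ^ 2 ≤ 1 := by
  have : 0 ≤ d ^ 2 / (u + d) ^ 2 := by positivity
  linarith

theorem phi_nonneg (hd : 0 < d) (hu : 0 ≤ u) : 0 ≤ phi d u := by unfold phi; positivity

theorem phi_le (hd : 0 < d) (hu : 0 ≤ u) : phi d u ≤ u := by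
  unfold phi
  rw [div_le_iff₀ (by linarith)]
  nlinarith

theorem phi_eq (hd : 0 < d) (hu : 0 ≤ u) : u * (Real.log d + lh d u) - G d u = phi d u := by
  rw [lh_eq hd hu]
  unfold G phi
  ring

theorem lh_nonneg (hd : 0 < d) (hu : 0 ≤ u) : 0 ≤ lh d u := by
  unfold lh
  have h1 : 0 ≤ u / d := div_nonneg hu hd.le
  have h2 : 0 ≤ Real.log (1 + u / d) := Real.log_nonneg (by linarith)
  positivity

theorem lh_zero : lh d 0 = 0 := by
  unfold lh
  simp

theorem lh_le (hd : 0 < d) (hd1 : d ≤ 1) (hu : 0 ≤ u) (hu4 : u ≤ 4) :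
    lh d u ≤ Real.log (1 / d) + 4 := by
  rw [lh_eq hd hu, one_div, Real.log_inv]
  have h1 : Real.log (u + d) ≤ 3 := by
    have h2 : Real.log (u + d) ≤ Real.log 8 := Real.log_le_log (by linarith) (by linarith)
    have h3 : Real.log 8 = 3 * Real.log 2 := by
      have : (8 : ℝ) = 2 ^ 3 := by norm_num
      rw [this, Real.log_pow]
      norm_num
    have h4 : Real.log 2 < 1 := by
      have := Real.log_two_lt_d9
      linarith
    linarith
  have h2 : u / (u + d) ≤ 1 := by
    rw [div_le_one (by linarith)]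
    linarith
  linarith

theorem log_one_add_le_sqrt {s : ℝ} (hs : 0 ≤ s) : Real.log (1 + s) ≤ Real.sqrt s := by
  have h0 := Real.sqrt_nonneg s
  have h1 : Real.sqrt s ^ 2 = s := Real.sq_sqrt hs
  rw [Real.log_le_iff_le_exp (by linarith)]
  have h2 := Real.quadratic_le_exp_of_nonneg h0
  by_cases h3 : Real.sqrt s ≤ 2
  · nlinarith
  · push Not at h3
    have h4 : Real.sqrt s ^ 3 / 6 + Real.sqrt s ^ 2 / 2 + Real.sqrt s + 1 ≤
        Real.exp (Real.sqrt s) := by
      have := Real.sum_le_exp_of_nonneg h0 4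
      simp only [Finset.sum_range_succ, Finset.sum_range_zero, Nat.factorial] at this
      norm_num at this
      linarith
    nlinarith [mul_nonneg h0 (sq_nonneg (Real.sqrt s - 2)), sq_nonneg (Real.sqrt s - 2)]

theorem lh_sq_le (hd : 0 < d) (hu : 0 ≤ u) : lh d u ^ 2 ≤ 4 * u / d := by
  have hs : 0 ≤ u / d := div_nonneg hu hd.le
  have h0 := Real.sqrt_nonneg (u / d)
  have h1 : Real.sqrt (u / d) ^ 2 = u / d := Real.sq_sqrt hs
  have h2 := log_one_add_le_sqrt hs
  have h3 : u / (u + d) ≤ Real.sqrt (u / d) := by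
    have h4 : u / (u + d) = (u / d) / (1 + u / d) := by
      field_simp
      ring
    rw [h4, div_le_iff₀ (by linarith)]
    nlinarith [sq_nonneg (Real.sqrt (u / d) - 1), mul_nonneg h0 hs]
  have h5 : lh d u ≤ 2 * Real.sqrt (u / d) := by
    unfold lh
    linarith
  have h6 := lh_nonneg hd hu
  calc lh d u ^ 2 ≤ (2 * Real.sqrt (u / d)) ^ 2 := pow_le_pow_left₀ h6 h5 2
    _ = 4 * u / d := by rw [mul_pow, h1]; ring

/-- `lh` is 1-Lipschitz in `log u`, one side -/
theorem lh_sub_le (hd : 0 < d) (hu0 : 0 < u0) (h : u0 ≤ u) :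
    lh d u - lh d u0 ≤ Real.log u - Real.log u0 := by
  have hu : 0 < u := hu0.trans_le h
  rw [lh_eq hd hu.le, lh_eq hd hu0.le]
  set p := u / (u + d) with hp
  set p0 := u0 / (u0 + d) with hp0
  have hp0p : 0 < p0 := by positivity
  have hpp : 0 < p := by positivity
  have h1 : p0 ≤ p := by
    rw [hp, hp0, div_le_div_iff₀ (by linarith) (by linarith)]
    nlinarith
  have h2 : p ≤ 1 := by
    rw [hp, div_le_one (by linarith)]
    linarith
  have h3 : Real.log p = Real.log u - Real.log (u + d) :=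
    Real.log_div hu.ne' (by linarith)
  have h4 : Real.log p0 = Real.log u0 - Real.log (u0 + d) :=
    Real.log_div hu0.ne' (by linarith)
  have h5 : 1 - p0 / p ≤ Real.log p - Real.log p0 := by
    have h6 := Real.one_sub_inv_le_log_of_pos (x := p / p0) (by positivity)
    rw [inv_div, Real.log_div hpp.ne' hp0p.ne'] at h6
    exact h6
  have h6 : p - p0 ≤ 1 - p0 / p := by
    have h7 : 1 - p0 / p = (p - p0) / p := by field_simp
    rw [h7, le_div_iff₀ hpp]
    nlinarith
  linarith

theorem lh_mono (hd : 0 < d) (hu0 : 0 ≤ u0) (h : u0 ≤ u) : lh d u0 ≤ lh d u := by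
  have hu : 0 ≤ u := hu0.trans h
  rw [lh_eq hd hu, lh_eq hd hu0]
  have h1 : Real.log (u0 + d) ≤ Real.log (u + d) := Real.log_le_log (by linarith) (by linarith)
  have h2 : u0 / (u0 + d) ≤ u / (u + d) := by
    rw [div_le_div_iff₀ (by linarith) (by linarith)]
    nlinarith
  linarith

/-- `lh` is 1-Lipschitz in `log u` -/
theorem abs_lh_sub_le (hd : 0 < d) (hu : 0 < u) (hu0 : 0 < u0) :
    |lh d u - lh d u0| ≤ |Real.log u - Real.log u0| := by
  rcases le_total u0 u with h | h
  · rw [abs_of_nonneg (sub_nonneg.2 (lh_mono hd hu0.le h)),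
      abs_of_nonneg (sub_nonneg.2 (Real.log_le_log hu0 h))]
    exact lh_sub_le hd hu0 h
  · rw [abs_sub_comm, abs_sub_comm (Real.log u),
      abs_of_nonneg (sub_nonneg.2 (lh_mono hd hu.le h)),
      abs_of_nonneg (sub_nonneg.2 (Real.log_le_log hu h))]
    exact lh_sub_le hd hu h

theorem abs_lh_sub_le_const (hd : 0 < d) (hd1 : d ≤ 1) (hu : 0 ≤ u) (hu4 : u ≤ 4) (hu0 : 0 ≤ u0)
    (hu04 : u0 ≤ 4) : |lh d u - lh d u0| ≤ Real.log (1 / d) + 4 := by
  have h1 := lh_nonneg hd hu
  have h2 := lh_nonneg hd hu0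
  have h3 := lh_le hd hd1 hu hu4
  have h4 := lh_le hd hd1 hu0 hu04
  rw [abs_le]
  constructor <;> linarith

/-- difference of logarithms from difference of square roots, away from zero -/
theorem abs_log_sub_le {x y a : ℝ} (hx : 0 < x) (hy : 0 < y)
    (h : |Real.sqrt x - Real.sqrt y| ≤ a) (h2 : 2 * a ≤ Real.sqrt y) :
    |Real.log x - Real.log y| * Real.sqrt y ≤ 4 * a := by
  have hsx := Real.sqrt_pos.2 hx
  have hsy := Real.sqrt_pos.2 hy
  have ha : 0 ≤ a := (abs_nonneg _).trans h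
  have hx2 : Real.sqrt y / 2 ≤ Real.sqrt x := by
    have := (abs_le.1 h).1
    linarith
  have e1 : Real.log x = 2 * Real.log (Real.sqrt x) := by
    rw [Real.log_sqrt hx.le]
    ring
  have e2 : Real.log y = 2 * Real.log (Real.sqrt y) := by
    rw [Real.log_sqrt hy.le]
    ring
  have h3 : Real.log (Real.sqrt x) - Real.log (Real.sqrt y) ≤
      (Real.sqrt x - Real.sqrt y) / Real.sqrt y := by
    have h4 := Real.log_le_sub_one_of_pos (x := Real.sqrt x / Real.sqrt y) (by positivity)
    rw [Real.log_div hsx.ne' hsy.ne'] at h4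
    have : Real.sqrt x / Real.sqrt y - 1 = (Real.sqrt x - Real.sqrt y) / Real.sqrt y := by
      field_simp
    linarith
  have h4 : Real.log (Real.sqrt y) - Real.log (Real.sqrt x) ≤
      (Real.sqrt y - Real.sqrt x) / Real.sqrt x := by
    have h4 := Real.log_le_sub_one_of_pos (x := Real.sqrt y / Real.sqrt x) (by positivity)
    rw [Real.log_div hsy.ne' hsx.ne'] at h4
    have : Real.sqrt y / Real.sqrt x - 1 = (Real.sqrt y - Real.sqrt x) / Real.sqrt x := by
      field_simp
    linarith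
  have h5 : (Real.sqrt x - Real.sqrt y) / Real.sqrt y ≤ a / (Real.sqrt y / 2) := by
    refine div_le_div₀ ha ((le_abs_self _).trans h) (by positivity) (by linarith)
  have h6 : (Real.sqrt y - Real.sqrt x) / Real.sqrt x ≤ a / (Real.sqrt y / 2) := by
    refine div_le_div₀ ha ?_ (by positivity) hx2
    rw [abs_sub_comm] at h
    exact (le_abs_self _).trans h
  have h7 : |Real.log x - Real.log y| ≤ 2 * (a / (Real.sqrt y / 2)) := by
    rw [e1, e2, abs_le]
    constructor <;> linarith
  calc |Real.log x - Real.log y| * Real.sqrt y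
      ≤ 2 * (a / (Real.sqrt y / 2)) * Real.sqrt y :=
        mul_le_mul_of_nonneg_right h7 hsy.le
    _ = 4 * a := by
        field_simp
        ring

/-- truncated difference of logarithms from difference of square roots -/
theorem min_log_sub_le {x y a T : ℝ} (hx : 0 < x) (hy : 0 < y) (hT : 2 ≤ T)
    (h : |Real.sqrt x - Real.sqrt y| ≤ a) :
    min T |Real.log x - Real.log y| * Real.sqrt y ≤ 2 * T * a := by
  have ha : 0 ≤ a := (abs_nonneg _).trans h
  have hsy := Real.sqrt_nonneg y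
  by_cases h2 : 2 * a ≤ Real.sqrt y
  · have h3 := abs_log_sub_le hx hy h h2
    have h4 : min T |Real.log x - Real.log y| * Real.sqrt y ≤
        |Real.log x - Real.log y| * Real.sqrt y :=
      mul_le_mul_of_nonneg_right (min_le_right _ _) hsy
    nlinarith
  · push Not at h2
    calc min T |Real.log x - Real.log y| * Real.sqrt y ≤ T * Real.sqrt y :=
          mul_le_mul_of_nonneg_right (min_le_left _ _) hsy
      _ ≤ T * (2 * a) := mul_le_mul_of_nonneg_left h2.le (by linarith)
      _ = 2 * T * a := by ring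

/-- **the moving multiplier, weight at the base point** -/
theorem lh_move {N N0 M M0 r a b : ℝ} (hd : 0 < d) (hd1 : d ≤ 1) (hN : 0 ≤ N) (hN0 : 0 ≤ N0)
    (hM : 0 < M) (hM0 : 0 < M0) (hr : 0 < r) (hu : N / (r * M) ≤ 4) (hu0 : N0 / (r * M0) ≤ 4)
    (hNa : |Real.sqrt N - Real.sqrt N0| ≤ a) (hMb : |Real.sqrt M - Real.sqrt M0| ≤ b) :
    |lh d (N / (r * M)) - lh d (N0 / (r * M0))| * Real.sqrt N0 ≤
      2 * (Real.log (1 / d) + 4) * (a + b * Real.sqrt (r * (N0 / (r * M0)))) := by
  have ha : 0 ≤ a := (abs_nonneg _).trans hNa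
  have hb : 0 ≤ b := (abs_nonneg _).trans hMb
  have hlog : 0 ≤ Real.log (1 / d) := Real.log_nonneg (by rw [le_div_iff₀ hd]; linarith)
  obtain ⟨T, hT⟩ : ∃ T, T = Real.log (1 / d) + 4 := ⟨_, rfl⟩
  have hT4 : 4 ≤ T := by linarith
  rw [← hT]
  have hu' : 0 ≤ N / (r * M) := by positivity
  have hu0' : 0 ≤ N0 / (r * M0) := by positivity
  have hS := Real.sqrt_nonneg (r * (N0 / (r * M0)))
  have hc := abs_lh_sub_le_const hd hd1 hu' hu hu0' hu0
  rw [← hT] at hc
  rcases hN0.eq_or_lt with h0 | h0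
  · rw [← h0, Real.sqrt_zero, mul_zero]
    have := Real.sqrt_nonneg (r * (0 / (r * M0)))
    positivity
  rcases hN.eq_or_lt with h1 | h1
  · -- `N = 0`
    have h2 : Real.sqrt N0 ≤ a := by
      rw [← h1, Real.sqrt_zero, zero_sub, abs_neg, abs_of_nonneg (Real.sqrt_nonneg _)] at hNa
      exact hNa
    calc |lh d (N / (r * M)) - lh d (N0 / (r * M0))| * Real.sqrt N0 ≤ T * a :=
          mul_le_mul hc h2 (Real.sqrt_nonneg _) (by linarith)
      _ ≤ 2 * T * (a + b * Real.sqrt (r * (N0 / (r * M0)))) := by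
          nlinarith [mul_nonneg hb hS, mul_nonneg (by linarith : (0:ℝ) ≤ T) (mul_nonneg hb hS),
            mul_nonneg (by linarith : (0:ℝ) ≤ T) ha]
  · have hup : 0 < N / (r * M) := by positivity
    have hu0p : 0 < N0 / (r * M0) := by positivity
    have h2 := abs_lh_sub_le hd hup hu0p
    have h3 : Real.log (N / (r * M)) - Real.log (N0 / (r * M0)) =
        (Real.log N - Real.log N0) - (Real.log M - Real.log M0) := by
      rw [Real.log_div h1.ne' (by positivity), Real.log_div h0.ne' (by positivity),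
        Real.log_mul hr.ne' hM.ne', Real.log_mul hr.ne' hM0.ne']
      ring
    have h4 : |lh d (N / (r * M)) - lh d (N0 / (r * M0))| ≤
        min T |Real.log N - Real.log N0| + min T |Real.log M - Real.log M0| := by
      have h5 : |lh d (N / (r * M)) - lh d (N0 / (r * M0))| ≤
          |Real.log N - Real.log N0| + |Real.log M - Real.log M0| := by
        refine h2.trans ?_
        rw [h3]
        exact abs_sub _ _
      rcases min_cases T |Real.log N - Real.log N0| with ⟨e1, _⟩ | ⟨e1, _⟩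
      · rw [e1]
        have := le_min (by linarith : (0:ℝ) ≤ T) (abs_nonneg (Real.log M - Real.log M0))
        linarith
      · rw [e1]
        rcases min_cases T |Real.log M - Real.log M0| with ⟨e2, _⟩ | ⟨e2, _⟩
        · rw [e2]
          have := abs_nonneg (Real.log N - Real.log N0)
          linarith
        · rw [e2]
          exact h5
    have h5 : Real.sqrt N0 = Real.sqrt (r * (N0 / (r * M0))) * Real.sqrt M0 := by
      rw [← Real.sqrt_mul (by positivity)]
      congr 1
      field_simp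
    have h6 := min_log_sub_le (T := T) h1 h0 (by linarith) hNa
    have h7 := min_log_sub_le (T := T) hM hM0 (by linarith) hMb
    calc |lh d (N / (r * M)) - lh d (N0 / (r * M0))| * Real.sqrt N0
        ≤ (min T |Real.log N - Real.log N0| + min T |Real.log M - Real.log M0|) *
          Real.sqrt N0 := mul_le_mul_of_nonneg_right h4 (Real.sqrt_nonneg _)
      _ = min T |Real.log N - Real.log N0| * Real.sqrt N0 +
          Real.sqrt (r * (N0 / (r * M0))) *
            (min T |Real.log M - Real.log M0| * Real.sqrt M0) := by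
          rw [add_mul]
          congr 1
          conv_lhs => rw [h5]
          ring
      _ ≤ 2 * T * a + Real.sqrt (r * (N0 / (r * M0))) * (2 * T * b) :=
          add_le_add h6 (mul_le_mul_of_nonneg_left h7 hS)
      _ = 2 * T * (a + b * Real.sqrt (r * (N0 / (r * M0)))) := by ring

/-- **the moving multiplier, weight at the moving point** -/
theorem lh_move' {N N0 M M0 r a b : ℝ} (hd : 0 < d) (hd1 : d ≤ 1) (hN : 0 ≤ N) (hN0 : 0 ≤ N0)
    (hM : 0 < M) (hM0 : 0 < M0) (hr : 0 < r) (hu : N / (r * M) ≤ 4) (hu0 : N0 / (r * M0) ≤ 4)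
    (hNa : |Real.sqrt N - Real.sqrt N0| ≤ a) (hMb : |Real.sqrt M - Real.sqrt M0| ≤ b) :
    |lh d (N / (r * M)) - lh d (N0 / (r * M0))| * Real.sqrt N ≤
      3 * (Real.log (1 / d) + 4) * (a + b * Real.sqrt (r * (N0 / (r * M0)))) := by
  have ha : 0 ≤ a := (abs_nonneg _).trans hNa
  have hb : 0 ≤ b := (abs_nonneg _).trans hMb
  have hlog : 0 ≤ Real.log (1 / d) := Real.log_nonneg (by rw [le_div_iff₀ hd]; linarith)
  have h1 := lh_move hd hd1 hN hN0 hM hM0 hr hu hu0 hNa hMb
  have hc := abs_lh_sub_le_const hd hd1 (by positivity : 0 ≤ N / (r * M)) hu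
    (by positivity : 0 ≤ N0 / (r * M0)) hu0
  have h2 : Real.sqrt N ≤ Real.sqrt N0 + a := by
    have := (le_abs_self _).trans hNa
    linarith
  have hS := mul_nonneg hb (Real.sqrt_nonneg (r * (N0 / (r * M0))))
  calc |lh d (N / (r * M)) - lh d (N0 / (r * M0))| * Real.sqrt N
      ≤ |lh d (N / (r * M)) - lh d (N0 / (r * M0))| * (Real.sqrt N0 + a) :=
        mul_le_mul_of_nonneg_left h2 (abs_nonneg _)
    _ = |lh d (N / (r * M)) - lh d (N0 / (r * M0))| * Real.sqrt N0 +
        |lh d (N / (r * M)) - lh d (N0 / (r * M0))| * a := by ring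
    _ ≤ 2 * (Real.log (1 / d) + 4) * (a + b * Real.sqrt (r * (N0 / (r * M0)))) +
        (Real.log (1 / d) + 4) * a := add_le_add h1 (mul_le_mul_of_nonneg_right hc ha)
    _ ≤ 3 * (Real.log (1 / d) + 4) * (a + b * Real.sqrt (r * (N0 / (r * M0)))) := by
        nlinarith [mul_nonneg (by linarith : (0:ℝ) ≤ Real.log (1 / d) + 4) hS]

end P365T2.H942.Lh
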