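import Vale.Agent.P365.T2.H942.Green

/-! # P365 T2, disc calculus: admissible densities for `Gn` (helper942) -/

open Complex Filter Topology Metric Laplacian InnerProductSpace MeasureTheory

noncomputable section

namespace P365T2.H942

/-- densities on the open disc with at most a first order blow-up at the circle -/
def Adm (ψ : ℂ → ℝ) : Prop :=
  ContinuousOn ψ (ball (0 : ℂ) 1) ∧ ∃ C, ∀ z ∈ ball (0 : ℂ) 1, |ψ z| ≤ C / (1 - ‖z‖)

theorem Adm.of_cont {ψ : ℂ → ℝ} (h : ContinuousOn ψ (closedBall (0 : ℂ) 1)) : Adm ψ := by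
  refine ⟨h.mono ball_subset_closedBall, ?_⟩
  obtain ⟨C, hC⟩ := (isCompact_closedBall (0 : ℂ) 1).exists_bound_of_continuousOn h
  refine ⟨C, fun z hz => ?_⟩
  have h1 := hC z (ball_subset_closedBall hz)
  rw [mem_ball, dist_zero_right] at hz
  have h2 : 0 < 1 - ‖z‖ := by linarith
  have h3 : 0 ≤ C := (norm_nonneg _).trans h1
  rw [le_div_iff₀ h2]
  have h4 : 1 - ‖z‖ ≤ 1 := by linarith [norm_nonneg z]
  calc |ψ z| * (1 - ‖z‖) ≤ |ψ z| * 1 := by gcongr
    _ ≤ C := by simpa using h1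

theorem Adm.add {ψ ψ' : ℂ → ℝ} (h : Adm ψ) (h' : Adm ψ') : Adm (fun z => ψ z + ψ' z) := by
  obtain ⟨h1, C, hC⟩ := h
  obtain ⟨h1', C', hC'⟩ := h'
  refine ⟨h1.add h1', C + C', fun z hz => ?_⟩
  have := abs_add_le (ψ z) (ψ' z)
  rw [add_div]
  linarith [hC z hz, hC' z hz]

theorem Adm.const_mul {ψ : ℂ → ℝ} (c : ℝ) (h : Adm ψ) : Adm (fun z => c * ψ z) := by
  obtain ⟨h1, C, hC⟩ := h
  refine ⟨continuousOn_const.mul h1, |c| * C, fun z hz => ?_⟩
  rw [abs_mul, mul_div_assoc]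
  exact mul_le_mul_of_nonneg_left (hC z hz) (abs_nonneg c)

theorem Adm.sub {ψ ψ' : ℂ → ℝ} (h : Adm ψ) (h' : Adm ψ') : Adm (fun z => ψ z - ψ' z) := by
  have := h.add (h'.const_mul (-1))
  simpa [sub_eq_add_neg] using this

theorem Adm.circleIntegrable {ψ : ℂ → ℝ} (h : Adm ψ) {r : ℝ} (hr : r ∈ Set.Ioo (0 : ℝ) 1) :
    CircleIntegrable ψ 0 r := by
  apply ContinuousOn.circleIntegrable hr.1.le
  apply h.1.mono
  intro z hz
  rw [mem_sphere] at hz
  rw [mem_ball, hz]
  exact hr.2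

theorem weight_le {r : ℝ} (hr : r ∈ Set.Ioo (0 : ℝ) 1) : r * Real.log (1 / r) ≤ 1 - r := by
  have h1 : Real.log (1 / r) ≤ 1 / r - 1 := Real.log_le_sub_one_of_pos (by have := hr.1; positivity)
  calc r * Real.log (1 / r) ≤ r * (1 / r - 1) := mul_le_mul_of_nonneg_left h1 hr.1.le
    _ = 1 - r := by have := hr.1.ne'; field_simp

theorem weight_nonneg {r : ℝ} (hr : r ∈ Set.Ioo (0 : ℝ) 1) : 0 ≤ r * Real.log (1 / r) := by
  apply mul_nonneg hr.1.le
  apply Real.log_nonneg
  rw [le_div_iff₀ hr.1]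
  linarith [hr.2]

theorem Adm.integrable {ψ : ℂ → ℝ} (h : Adm ψ) :
    IntegrableOn (fun r => r * Real.log (1 / r) * Real.circleAverage ψ 0 r) (Set.Ioo (0 : ℝ) 1) := by
  obtain ⟨C, hC⟩ := h.2
  have hC0 : 0 ≤ C := by
    have := hC 0 (mem_ball_self one_pos)
    simp only [norm_zero, sub_zero, div_one] at this
    exact (abs_nonneg _).trans this
  have hcont : ContinuousOn (fun r => r * Real.log (1 / r) * Real.circleAverage ψ 0 r)
      (Set.Ioo (0 : ℝ) 1) := by
    apply ContinuousOn.mul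
    · apply ContinuousOn.mul continuousOn_id
      apply ContinuousOn.log
      · apply ContinuousOn.div continuousOn_const continuousOn_id
        intro r hr; exact hr.1.ne'
      · intro r hr
        have := hr.1
        positivity
    · apply (Real.ContinuousOn.circleAverage (f := ψ) (c := 0) (s := Set.Ico (0 : ℝ) 1) ?_ ?_).mono
        Set.Ioo_subset_Ico_self
      · apply h.1.mono
        intro z hz
        simp only [sub_zero, Set.mem_ofPred_eq] at hz
        rw [mem_ball, dist_zero_right]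
        exact hz.2
      · intro r hr; exact hr.1
  refine IntegrableOn.of_bound (by simp) (hcont.aestronglyMeasurable measurableSet_Ioo) C ?_
  refine (ae_restrict_iff' measurableSet_Ioo).2 ?_
  filter_upwards with r hr
  have h1 : |Real.circleAverage ψ 0 r| ≤ C / (1 - r) := by
    rw [abs_le]
    have hb : ∀ z ∈ sphere (0 : ℂ) |r|, |ψ z| ≤ C / (1 - r) := by
      intro z hz
      rw [abs_of_pos hr.1, mem_sphere, dist_zero_right] at hz
      have := hC z (by rw [mem_ball, dist_zero_right, hz]; exact hr.2)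
      rwa [hz] at this
    constructor
    · have h2 := Real.circleAverage_mono (f₁ := fun _ => -(C / (1 - r)))
        (circleIntegrable_const _ _ _) (h.circleIntegrable hr)
        (fun z hz => neg_le_of_abs_le (hb z hz))
      rwa [Real.circleAverage_const] at h2
    · exact Real.circleAverage_mono_on_of_le_circle (h.circleIntegrable hr)
        (fun z hz => le_of_abs_le (hb z hz))
  rw [Real.norm_eq_abs, abs_mul, abs_of_nonneg (weight_nonneg hr)]
  have h3 : 0 < 1 - r := by linarith [hr.2]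
  calc r * Real.log (1 / r) * |Real.circleAverage ψ 0 r| ≤ (1 - r) * (C / (1 - r)) := by
        apply mul_le_mul (weight_le hr) h1 (abs_nonneg _) h3.le
    _ = C := by field_simp

theorem Gn_eq (ψ : ℂ → ℝ) :
    Gn ψ = ∫ r in Set.Ioo (0 : ℝ) 1, r * Real.log (1 / r) * Real.circleAverage ψ 0 r := by
  unfold Gn
  rw [intervalIntegral.integral_of_le zero_le_one, integral_Ioc_eq_integral_Ioo]

theorem Gn_add {ψ ψ' : ℂ → ℝ} (h : Adm ψ) (h' : Adm ψ') :
    Gn (fun z => ψ z + ψ' z) = Gn ψ + Gn ψ' := by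
  rw [Gn_eq, Gn_eq, Gn_eq, ← integral_add h.integrable h'.integrable]
  refine setIntegral_congr_fun measurableSet_Ioo ?_
  intro r hr
  simp only
  rw [Real.circleAverage_fun_add (h.circleIntegrable hr) (h'.circleIntegrable hr)]
  ring

theorem Gn_const_mul {ψ : ℂ → ℝ} (c : ℝ) : Gn (fun z => c * ψ z) = c * Gn ψ := by
  rw [Gn_eq, Gn_eq, ← integral_const_mul]
  congr 1
  funext r
  have := Real.circleAverage_fun_smul (a := c) (f := ψ) (c := 0) (R := r)
  simp only [smul_eq_mul] at this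
  rw [this]
  ring

theorem Gn_sub {ψ ψ' : ℂ → ℝ} (h : Adm ψ) (h' : Adm ψ') :
    Gn (fun z => ψ z - ψ' z) = Gn ψ - Gn ψ' := by
  have h1 := Gn_add h (h'.const_mul (-1))
  rw [Gn_const_mul] at h1
  have h2 : (fun z => ψ z - ψ' z) = fun z => ψ z + -1 * ψ' z := by
    funext z; ring
  rw [h2, h1]
  ring

theorem Gn_mono {ψ ψ' : ℂ → ℝ} (h : Adm ψ) (h' : Adm ψ') (hle : ∀ z ∈ ball (0 : ℂ) 1, ψ z ≤ ψ' z) :
    Gn ψ ≤ Gn ψ' := by
  rw [Gn_eq, Gn_eq]
  refine setIntegral_mono_on h.integrable h'.integrable measurableSet_Ioo ?_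
  intro r hr
  apply mul_le_mul_of_nonneg_left _ (weight_nonneg hr)
  apply Real.circleAverage_mono (h.circleIntegrable hr) (h'.circleIntegrable hr)
  intro z hz
  apply hle
  rw [abs_of_pos hr.1, mem_sphere] at hz
  rw [mem_ball, hz]
  exact hr.2

theorem Gn_nonneg {ψ : ℂ → ℝ} (hle : ∀ z ∈ ball (0 : ℂ) 1, 0 ≤ ψ z) : 0 ≤ Gn ψ := by
  rw [Gn_eq]
  refine setIntegral_nonneg measurableSet_Ioo ?_
  intro r hr
  apply mul_nonneg (weight_nonneg hr)
  apply Real.circleAverage_nonneg_of_nonneg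
  intro z hz
  apply hle
  rw [abs_of_pos hr.1, mem_sphere] at hz
  rw [mem_ball, hz]
  exact hr.2

/-- the Laplacian of a function that is `C²` near the closed disc is continuous there -/
theorem lap_continuousOn {f : ℂ → ℝ} (hf : ∀ z ∈ closedBall (0 : ℂ) 1, ContDiffAt ℝ 2 f z) :
    ContinuousOn (Δ f) (closedBall (0 : ℂ) 1) := by
  obtain ⟨g, hg, hgf⟩ := exists_global hf
  have h1 : Continuous (Δ g) := by
    rw [laplacian_eq_iteratedFDeriv_complexPlane]
    have hc : Continuous (iteratedFDeriv ℝ 2 g) := hg.continuous_iteratedFDeriv (by norm_num)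
    fun_prop
  refine h1.continuousOn.congr ?_
  intro z hz
  exact (laplacian_congr_nhds (hgf z hz)).self_of_nhds.symm

theorem Adm.lap {f : ℂ → ℝ} (hf : ∀ z ∈ closedBall (0 : ℂ) 1, ContDiffAt ℝ 2 f z) : Adm (Δ f) :=
  Adm.of_cont (lap_continuousOn hf)

/-- **(D1')** -/
theorem green_ge {f ψ : ℂ → ℝ} (hf : ∀ z ∈ closedBall (0 : ℂ) 1, ContDiffAt ℝ 2 f z)
    (hψ : Adm ψ) (hle : ∀ z ∈ ball (0 : ℂ) 1, ψ z ≤ Δ f z) :
    Gn ψ ≤ Real.circleAverage f 0 1 - f 0 := by
  rw [green hf]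
  exact Gn_mono hψ (Adm.lap hf) hle

end P365T2.H942
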