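import Mathlib

/-! # P365 T2: the pointwise gap inequality (292's (G3)), helper942 -/

open Complex Finset

noncomputable section

namespace P365T2.H942

variable {U : Type*} [Fintype U]

/-- weighted Cauchy-Schwarz behind (G3): `q` is the `e ‖a‖²`-mean of `w`. -/
theorem gap_cs (e w : U → ℝ) (he : ∀ u, 0 ≤ e u) (hw : ∀ u, 0 ≤ w u) (a b : U → ℂ) {q : ℝ}
    (hq0 : 0 ≤ q) (hq : ∑ u, e u * w u * ‖a u‖ ^ 2 = q * ∑ u, e u * ‖a u‖ ^ 2) :
    ‖∑ u, ((e u * (w u - q) : ℝ) : ℂ) * ((starRingEnd ℂ) (a u) * b u)‖ ^ 2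
      ≤ 2 * q * (∑ u, e u * ‖a u‖ ^ 2) *
        (∑ u, e u * w u * ‖b u‖ ^ 2 + q * ∑ u, e u * ‖b u‖ ^ 2) := by
  have h1 : ‖∑ u, ((e u * (w u - q) : ℝ) : ℂ) * ((starRingEnd ℂ) (a u) * b u)‖
      ≤ ∑ u, (Real.sqrt (e u * (w u + q)) * ‖a u‖) * (Real.sqrt (e u * (w u + q)) * ‖b u‖) := by
    refine (norm_sum_le _ _).trans (Finset.sum_le_sum fun u _ => ?_)
    rw [norm_mul, norm_mul, RCLike.norm_conj, Complex.norm_real, Real.norm_eq_abs, abs_mul,
      abs_of_nonneg (he u)]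
    have h2 : |w u - q| ≤ w u + q := by
      rw [abs_le]
      constructor <;> linarith [hw u]
    have h3 : Real.sqrt (e u * (w u + q)) * Real.sqrt (e u * (w u + q)) = e u * (w u + q) :=
      Real.mul_self_sqrt (mul_nonneg (he u) (by linarith [hw u]))
    calc e u * |w u - q| * (‖a u‖ * ‖b u‖) ≤ e u * (w u + q) * (‖a u‖ * ‖b u‖) := by
          gcongr
          exact he u
      _ = (Real.sqrt (e u * (w u + q)) * Real.sqrt (e u * (w u + q))) * (‖a u‖ * ‖b u‖) := by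
          rw [h3]
      _ = _ := by ring
  have h4 := Finset.sum_mul_sq_le_sq_mul_sq Finset.univ
    (fun u => Real.sqrt (e u * (w u + q)) * ‖a u‖) (fun u => Real.sqrt (e u * (w u + q)) * ‖b u‖)
  have h5 : ∀ c : U → ℂ, ∑ u, (Real.sqrt (e u * (w u + q)) * ‖c u‖) ^ 2
      = ∑ u, e u * w u * ‖c u‖ ^ 2 + q * ∑ u, e u * ‖c u‖ ^ 2 := by
    intro c
    rw [Finset.mul_sum, ← Finset.sum_add_distrib]
    refine Finset.sum_congr rfl fun u _ => ?_
    rw [mul_pow, Real.sq_sqrt (mul_nonneg (he u) (by linarith [hw u]))]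
    ring
  rw [h5 a, h5 b, hq] at h4
  have h6 : ‖∑ u, ((e u * (w u - q) : ℝ) : ℂ) * ((starRingEnd ℂ) (a u) * b u)‖ ^ 2 ≤
      (∑ u, (Real.sqrt (e u * (w u + q)) * ‖a u‖) * (Real.sqrt (e u * (w u + q)) * ‖b u‖)) ^ 2 := by
    gcongr
  refine h6.trans (h4.trans (le_of_eq ?_))
  ring

end P365T2.H942
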