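import Vale.Agent.P365.T2.H942.Lap

/-! # P365 T2, disc calculus: the Green representation on the unit disc (helper942)

`Gn ψ = ∫₀¹ r log (1/r) (circle average of ψ on |z| = r) dr` is the Green potential at `0`:
`circleAverage f 0 1 - f 0 = Gn (Δ f)` for `f` of class `C²` on the closed disc. -/

open Complex Filter Topology Metric Laplacian InnerProductSpace MeasureTheory

noncomputable section

namespace P365T2.H942

/-- Green potential at the centre of the unit disc -/
def Gn (ψ : ℂ → ℝ) : ℝ := ∫ r in (0 : ℝ)..1, r * Real.log (1 / r) * Real.circleAverage ψ 0 r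

theorem one_dim {h h1 h2 : ℝ → ℝ} (hh : ∀ r, HasDerivAt h (h1 r) r)
    (hh1 : ∀ r, HasDerivAt h1 (h2 r) r) (hc : Continuous h2) :
    ∫ r in (0 : ℝ)..1, Real.log (1 / r) * (r * h2 r + h1 r) = h 1 - h 0 := by
  have hc1 : Continuous h1 := continuous_iff_continuousAt.2 fun r => (hh1 r).continuousAt
  have hc0 : Continuous h := continuous_iff_continuousAt.2 fun r => (hh r).continuousAt
  have key : ∀ r ∈ Set.Ioo (0 : ℝ) 1, HasDerivAt (fun r => h r - (r * Real.log r) * h1 r)
      (Real.log (1 / r) * (r * h2 r + h1 r)) r := by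
    intro r hr
    have e1 := (hh r).sub ((Real.hasDerivAt_mul_log hr.1.ne').mul (hh1 r))
    refine e1.congr_deriv ?_
    rw [one_div, Real.log_inv]
    ring
  have hint : IntervalIntegrable (fun r => Real.log (1 / r) * (r * h2 r + h1 r)) volume 0 1 := by
    have e1 : IntervalIntegrable (fun r => Real.log r) volume 0 1 :=
      intervalIntegral.intervalIntegrable_log'
    have e2 : Continuous fun r : ℝ => -(r * h2 r + h1 r) := by fun_prop
    have e3 := e1.mul_continuousOn e2.continuousOn
    refine e3.congr ?_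
    intro r _
    simp only [one_div, Real.log_inv]
    ring
  rw [intervalIntegral.integral_eq_sub_of_hasDerivAt_of_le zero_le_one ?_ key hint]
  · simp
  · exact (hc0.sub (Real.continuous_mul_log.mul hc1)).continuousOn

theorem rot_aux (B : ℂ →L[ℝ] ℂ →L[ℝ] ℝ) (x y : ℝ) :
    B (x • (1 : ℂ) + y • I) (x • (1 : ℂ) + y • I) + B ((-y) • (1 : ℂ) + x • I) ((-y) • (1 : ℂ) + x • I)
      = (x * x + y * y) * (B 1 1 + B I I) := by
  simp only [map_add, map_smul, _root_.add_apply, _root_.smul_apply, smul_eq_mul]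
  ring

theorem rot (B : ℂ →L[ℝ] ℂ →L[ℝ] ℝ) (a : ℂ) :
    B a a + B (a * I) (a * I) = ‖a‖ ^ 2 * (B 1 1 + B I I) := by
  have h1 : a = a.re • (1 : ℂ) + a.im • I := by
    apply Complex.ext <;> simp
  have h2 : a * I = (-a.im) • (1 : ℂ) + a.re • I := by
    apply Complex.ext <;> simp
  have h3 := rot_aux B a.re a.im
  rw [← h1, ← h2] at h3
  rw [h3, ← Complex.normSq_eq_norm_sq, Complex.normSq_apply]

/-- (D1) for globally `C²` functions -/
theorem green_global {f : ℂ → ℝ} (hf : ContDiff ℝ 2 f) :
    Real.circleAverage f 0 1 - f 0 = Gn (Δ f) := by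
  have hd : Differentiable ℝ f := hf.differentiable (by norm_num)
  have hf1 : ContDiff ℝ 1 (fderiv ℝ f) := hf.fderiv_right (m := 1) (by norm_num)
  have hd1 : Differentiable ℝ (fderiv ℝ f) := hf1.differentiable (by norm_num)
  have hc1 : Continuous (fderiv ℝ f) := hd1.continuous
  have hc2 : Continuous (fderiv ℝ (fderiv ℝ f)) := hf1.continuous_fderiv (by norm_num)
  set D := fderiv ℝ f with hD
  set B := fderiv ℝ D with hB
  -- radial data
  have hlin : ∀ e : ℂ, ∀ r : ℝ, HasDerivAt (fun r : ℝ => (r : ℂ) * e) e r := by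
    intro e r
    simpa using ((ofRealCLM.hasDerivAt (x := r)).mul_const e)
  have hr1 : ∀ e : ℂ, ∀ r : ℝ, HasDerivAt (fun r : ℝ => f (r * e)) (D (r * e) e) r := fun e r =>
    (hd (r * e)).hasFDerivAt.comp_hasDerivAt r (hlin e r)
  have hr2 : ∀ e : ℂ, ∀ r : ℝ, HasDerivAt (fun r : ℝ => D (r * e) e) (B (r * e) e e) r := by
    intro e r
    have h4 := (hd1 (r * e)).hasFDerivAt.comp_hasDerivAt r (hlin e r)
    have h5 := h4.clm_apply (hasDerivAt_const r e)
    simpa using h5
  have hcm : ∀ r θ : ℝ, circleMap 0 r θ = r * exp (θ * I) := by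
    intro r θ; simp [circleMap]
  have hrad : ∀ θ : ℝ, ∫ r in (0 : ℝ)..1, Real.log (1 / r) *
      (r * (B (circleMap 0 r θ) (exp (θ * I)) (exp (θ * I))) + D (circleMap 0 r θ) (exp (θ * I)))
      = f (circleMap 0 1 θ) - f 0 := by
    intro θ
    have h6 := one_dim (h := fun r : ℝ => f (r * exp (θ * I)))
      (h1 := fun r : ℝ => D (r * exp (θ * I)) (exp (θ * I)))
      (h2 := fun r : ℝ => B (r * exp (θ * I)) (exp (θ * I)) (exp (θ * I)))
      (hr1 _) (hr2 _) (by fun_prop)
    simp only [hcm]
    rw [h6]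
    simp
  -- angular data
  have hang : ∀ r : ℝ, ∫ θ in (0 : ℝ)..(2 * Real.pi),
      (B (circleMap 0 r θ) (circleMap 0 r θ * I) (circleMap 0 r θ * I)
        - D (circleMap 0 r θ) (circleMap 0 r θ)) = 0 := by
    intro r
    have a1 : ∀ θ : ℝ, HasDerivAt (fun θ : ℝ => circleMap 0 r θ * I)
        (-circleMap 0 r θ) θ := by
      intro θ
      have := (hasDerivAt_circleMap 0 r θ).mul_const I
      refine this.congr_deriv ?_
      rw [mul_assoc, I_mul_I]
      ring
    have a2 : ∀ θ : ℝ, HasDerivAt (fun θ : ℝ => D (circleMap 0 r θ) (circleMap 0 r θ * I))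
        (B (circleMap 0 r θ) (circleMap 0 r θ * I) (circleMap 0 r θ * I)
        - D (circleMap 0 r θ) (circleMap 0 r θ)) θ := by
      intro θ
      have h4 := (hd1 (circleMap 0 r θ)).hasFDerivAt.comp_hasDerivAt θ (hasDerivAt_circleMap 0 r θ)
      have h5 := h4.clm_apply (a1 θ)
      refine h5.congr_deriv ?_
      simp [sub_eq_add_neg, hB]
    rw [intervalIntegral.integral_eq_sub_of_hasDerivAt (fun θ _ => a2 θ)]
    · have : circleMap 0 r (2 * Real.pi) = circleMap 0 r 0 := by simp [circleMap]
      rw [this, sub_self]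
    · apply Continuous.intervalIntegrable
      fun_prop
  -- the Laplacian on the circle
  have hlap : ∀ z : ℂ, Δ f z = B z 1 1 + B z I I := by
    intro z
    rw [laplacian_eq_iteratedFDeriv_complexPlane]
    simp only [iteratedFDeriv_two_apply]
    simp [hB, hD]
  have hlapc : ∀ r θ : ℝ, r ≠ 0 → r * Δ f (circleMap 0 r θ) =
      (r * (B (circleMap 0 r θ) (exp (θ * I)) (exp (θ * I))) + D (circleMap 0 r θ) (exp (θ * I)))
      + r⁻¹ * (B (circleMap 0 r θ) (circleMap 0 r θ * I) (circleMap 0 r θ * I)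
        - D (circleMap 0 r θ) (circleMap 0 r θ)) := by
    intro r θ hr
    have h7 := rot (B (circleMap 0 r θ)) (circleMap 0 r θ)
    have h8 : ‖circleMap 0 r θ‖ ^ 2 = r ^ 2 := by simp
    rw [h8, ← hlap] at h7
    have h9 : B (circleMap 0 r θ) (circleMap 0 r θ) (circleMap 0 r θ)
        = r ^ 2 * B (circleMap 0 r θ) (exp (θ * I)) (exp (θ * I)) := by
      have : circleMap 0 r θ = r • exp (θ * I) := by simp [circleMap]
      nth_rewrite 2 [this]
      nth_rewrite 2 [this]
      simp only [map_smul, _root_.smul_apply, smul_eq_mul]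
      ring
    have h10 : D (circleMap 0 r θ) (circleMap 0 r θ) = r * D (circleMap 0 r θ) (exp (θ * I)) := by
      have : circleMap 0 r θ = r • exp (θ * I) := by simp [circleMap]
      nth_rewrite 2 [this]
      simp only [map_smul, smul_eq_mul]
    rw [h10]
    rw [h9] at h7
    generalize B (circleMap 0 r θ) (circleMap 0 r θ * I) (circleMap 0 r θ * I) = X at h7 ⊢
    generalize B (circleMap 0 r θ) (exp (θ * I)) (exp (θ * I)) = Y at h7 ⊢
    generalize D (circleMap 0 r θ) (exp (θ * I)) = Z
    generalize Δ f (circleMap 0 r θ) = W at h7 ⊢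
    have h12 : X = r ^ 2 * W - r ^ 2 * Y := by linarith
    rw [h12]
    field_simp
    ring
  -- assemble
  have hcont : Continuous fun p : ℝ × ℝ =>
      p.1 * (B (circleMap 0 p.1 p.2) (exp (p.2 * I)) (exp (p.2 * I)))
        + D (circleMap 0 p.1 p.2) (exp (p.2 * I)) := by
    have c1 : Continuous fun p : ℝ × ℝ => circleMap 0 p.1 p.2 := by fun_prop
    fun_prop
  have hstep : ∀ r ∈ Set.Ioc (0 : ℝ) 1, r * Real.log (1 / r) * Real.circleAverage (Δ f) 0 r =
      (2 * Real.pi)⁻¹ * ∫ θ in (0 : ℝ)..(2 * Real.pi), Real.log (1 / r) *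
        (r * (B (circleMap 0 r θ) (exp (θ * I)) (exp (θ * I)))
          + D (circleMap 0 r θ) (exp (θ * I))) := by
    intro r hr
    rw [Real.circleAverage, smul_eq_mul, intervalIntegral.integral_const_mul]
    have h11 : r * ∫ θ in (0 : ℝ)..(2 * Real.pi), Δ f (circleMap 0 r θ) =
        ∫ θ in (0 : ℝ)..(2 * Real.pi), (r * (B (circleMap 0 r θ) (exp (θ * I)) (exp (θ * I)))
          + D (circleMap 0 r θ) (exp (θ * I))) := by
      rw [← intervalIntegral.integral_const_mul]
      simp only [hlapc r _ hr.1.ne']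
      rw [intervalIntegral.integral_add, intervalIntegral.integral_const_mul, hang r]
      · simp
      · apply Continuous.intervalIntegrable
        fun_prop
      · apply Continuous.intervalIntegrable
        fun_prop
    rw [← h11]
    ring
  have hGn : Gn (Δ f) = ∫ r in (0 : ℝ)..1, (2 * Real.pi)⁻¹ *
      ∫ θ in (0 : ℝ)..(2 * Real.pi), Real.log (1 / r) *
        (r * (B (circleMap 0 r θ) (exp (θ * I)) (exp (θ * I)))
          + D (circleMap 0 r θ) (exp (θ * I))) := by
    unfold Gn
    rw [intervalIntegral.integral_of_le zero_le_one, intervalIntegral.integral_of_le zero_le_one]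
    exact setIntegral_congr_fun measurableSet_Ioc hstep
  rw [hGn, intervalIntegral.integral_const_mul, intervalIntegral_intervalIntegral_swap]
  · simp only [hrad]
    rw [intervalIntegral.integral_sub, Real.circleAverage, smul_eq_mul,
      intervalIntegral.integral_const, mul_sub]
    · simp only [sub_zero, smul_eq_mul]
      rw [← mul_assoc, inv_mul_cancel₀ (by positivity), one_mul]
    · apply Continuous.intervalIntegrable
      have := hf.continuous
      fun_prop
    · exact intervalIntegrable_const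
  · have hb : ∃ C, ∀ p ∈ Set.Icc (0 : ℝ) 1 ×ˢ Set.Icc (0 : ℝ) (2 * Real.pi),
        ‖p.1 * (B (circleMap 0 p.1 p.2) (exp (p.2 * I)) (exp (p.2 * I)))
        + D (circleMap 0 p.1 p.2) (exp (p.2 * I))‖ ≤ C :=
      (isCompact_Icc.prod isCompact_Icc).exists_bound_of_continuousOn hcont.continuousOn
    obtain ⟨C, hC⟩ := hb
    have hpi : (0 : ℝ) ≤ 2 * Real.pi := by positivity
    rw [Set.uIoc_of_le zero_le_one, Set.uIoc_of_le hpi]
    have hlog : IntegrableOn (fun p : ℝ × ℝ => Real.log (1 / p.1))
        (Set.Ioc (0 : ℝ) 1 ×ˢ Set.Ioc (0 : ℝ) (2 * Real.pi)) := by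
      have e1 : IntervalIntegrable (fun r => Real.log r) volume 0 1 :=
        intervalIntegral.intervalIntegrable_log'
      rw [intervalIntegrable_iff_integrableOn_Ioc_of_le zero_le_one] at e1
      have e2 : IntegrableOn (fun r : ℝ => Real.log (1 / r)) (Set.Ioc 0 1) := by
        refine e1.neg.congr ?_
        filter_upwards with r
        simp
      have e3 := (Integrable.comp_fst (μ := volume.restrict (Set.Ioc (0 : ℝ) 1))
        (ν := volume.restrict (Set.Ioc (0 : ℝ) (2 * Real.pi))) e2)
      rw [Measure.prod_restrict] at e3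
      exact e3
    refine Integrable.mul_bdd (c := C) hlog hcont.aestronglyMeasurable ?_
    refine (ae_restrict_iff' (measurableSet_Ioc.prod measurableSet_Ioc)).2 ?_
    filter_upwards with p hp
    exact hC p ⟨Set.Ioc_subset_Icc_self hp.1, Set.Ioc_subset_Icc_self hp.2⟩

/-- cut-off: a function that is `C²` near the closed unit disc agrees near it with a global one -/
theorem exists_global {f : ℂ → ℝ} (hf : ∀ z ∈ closedBall (0 : ℂ) 1, ContDiffAt ℝ 2 f z) :
    ∃ g : ℂ → ℝ, ContDiff ℝ 2 g ∧ ∀ z ∈ closedBall (0 : ℂ) 1, g =ᶠ[𝓝 z] f := by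
  have hopen : IsOpen {z : ℂ | ContDiffAt ℝ 2 f z} := by
    rw [isOpen_iff_mem_nhds]
    intro z hz
    exact (show ContDiffAt ℝ 2 f z from hz).eventually (by simp)
  obtain ⟨e, h₁e, h₂e⟩ := (isCompact_closedBall (0 : ℂ) 1).exists_thickening_subset_open
    hopen (fun z hz => hf z hz)
  rw [thickening_closedBall h₁e zero_le_one] at h₂e
  let χ : ContDiffBump (0 : ℂ) := ⟨1 + e / 4, 1 + e / 2, by linarith, by linarith⟩
  refine ⟨fun z => χ z * f z, ?_, ?_⟩
  · rw [contDiff_iff_contDiffAt]
    intro z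
    by_cases hz : z ∈ ball (0 : ℂ) (e + 1)
    · exact χ.contDiffAt.mul (h₂e hz)
    · have hz' : e + 1 ≤ dist z 0 := by simpa [mem_ball] using hz
      have h0 : (fun z => χ z * f z) =ᶠ[𝓝 z] fun _ => 0 := by
        have hc : ∀ᶠ w in 𝓝 z, 1 + e / 2 < dist w 0 := by
          apply (isOpen_lt continuous_const (by fun_prop)).mem_nhds
          change 1 + e / 2 < dist z 0
          linarith
        filter_upwards [hc] with w hw
        rw [χ.zero_of_le_dist hw.le, zero_mul]
      exact contDiffAt_const.congr_of_eventuallyEq h0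
  · intro z hz
    have hz' : z ∈ ball (0 : ℂ) χ.rIn := by
      rw [mem_ball]
      rw [mem_closedBall] at hz
      change dist z 0 < 1 + e / 4
      linarith
    filter_upwards [χ.eventuallyEq_one_of_mem_ball hz'] with w hw
    rw [hw]
    simp

theorem Gn_congr {ψ ψ' : ℂ → ℝ} (h : ∀ z ∈ ball (0 : ℂ) 1, ψ z = ψ' z) : Gn ψ = Gn ψ' := by
  unfold Gn
  rw [intervalIntegral.integral_of_le zero_le_one, intervalIntegral.integral_of_le zero_le_one,
    integral_Ioc_eq_integral_Ioo, integral_Ioc_eq_integral_Ioo]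
  refine setIntegral_congr_fun measurableSet_Ioo ?_
  intro r hr
  simp only
  rw [Real.circleAverage_congr_sphere (f₂ := ψ')]
  intro z hz
  apply h
  rw [mem_sphere, abs_of_pos hr.1] at hz
  rw [mem_ball, hz]
  exact hr.2

/-- **(D1)** Green's formula at the centre of the unit disc -/
theorem green {f : ℂ → ℝ} (hf : ∀ z ∈ closedBall (0 : ℂ) 1, ContDiffAt ℝ 2 f z) :
    Real.circleAverage f 0 1 - f 0 = Gn (Δ f) := by
  obtain ⟨g, hg, hgf⟩ := exists_global hf
  have h1 := green_global hg
  have h2 : Real.circleAverage g 0 1 = Real.circleAverage f 0 1 := by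
    apply Real.circleAverage_congr_sphere
    intro z hz
    rw [abs_one] at hz
    exact (hgf z (sphere_subset_closedBall hz)).self_of_nhds
  have h3 : g 0 = f 0 := (hgf 0 (mem_closedBall_self zero_le_one)).self_of_nhds
  rw [h2, h3] at h1
  rw [h1]
  apply Gn_congr
  intro z hz
  exact (laplacian_congr_nhds (hgf z (ball_subset_closedBall hz))).self_of_nhds

end P365T2.H942
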