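import Mathlib

/-! # P365 T2, disc calculus: Laplacians by second derivatives along lines (helper942) -/

open Complex Filter Topology Metric Laplacian InnerProductSpace

noncomputable section

namespace P365T2.H942

/-- `f` restricted to the line `z + t v` has first derivative `a` and second derivative `b` at `t = 0`. -/
def J2 (f : ℂ → ℝ) (z v : ℂ) (a b : ℝ) : Prop :=
  ∃ g : ℝ → ℝ, (∀ᶠ t in 𝓝 (0 : ℝ), HasDerivAt (fun t : ℝ => f (z + t * v)) (g t) t) ∧
    g 0 = a ∧ HasDerivAt g b 0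

theorem J2.const (c : ℝ) (z v : ℂ) : J2 (fun _ => c) z v 0 0 :=
  ⟨fun _ => 0, Eventually.of_forall fun t => hasDerivAt_const t c, rfl, hasDerivAt_const 0 0⟩

theorem J2.congr {f f' : ℂ → ℝ} {z v : ℂ} {a b : ℝ} (h : J2 f z v a b) (hf : f =ᶠ[𝓝 z] f') :
    J2 f' z v a b := by
  obtain ⟨g, hg, h0, h1⟩ := h
  refine ⟨g, ?_, h0, h1⟩
  have hc : Tendsto (fun t : ℝ => z + t * v) (𝓝 0) (𝓝 z) := by
    have : Continuous fun t : ℝ => z + t * v := by fun_prop
    simpa using this.tendsto 0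
  have h2 := (hc.eventually (eventually_eventually_nhds.2 hf))
  filter_upwards [hg, h2] with t ht ht2
  have hc' : Tendsto (fun t : ℝ => z + t * v) (𝓝 t) (𝓝 (z + t * v)) := by
    have : Continuous fun t : ℝ => z + t * v := by fun_prop
    exact this.tendsto t
  refine ht.congr_of_eventuallyEq ?_
  filter_upwards [hc'.eventually ht2] with s hs
  exact hs.symm

theorem J2.add {f f' : ℂ → ℝ} {z v : ℂ} {a b a' b' : ℝ} (h : J2 f z v a b) (h' : J2 f' z v a' b') :
    J2 (fun w => f w + f' w) z v (a + a') (b + b') := by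
  obtain ⟨g, hg, h0, h1⟩ := h
  obtain ⟨g', hg', h0', h1'⟩ := h'
  refine ⟨fun t => g t + g' t, ?_, by simp [h0, h0'], h1.add h1'⟩
  filter_upwards [hg, hg'] with t ht ht'
  exact ht.add ht'

theorem J2.neg {f : ℂ → ℝ} {z v : ℂ} {a b : ℝ} (h : J2 f z v a b) :
    J2 (fun w => - f w) z v (-a) (-b) := by
  obtain ⟨g, hg, h0, h1⟩ := h
  refine ⟨fun t => - g t, ?_, by simp [h0], h1.neg⟩
  filter_upwards [hg] with t ht
  exact ht.neg

theorem J2.sub {f f' : ℂ → ℝ} {z v : ℂ} {a b a' b' : ℝ} (h : J2 f z v a b) (h' : J2 f' z v a' b') :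
    J2 (fun w => f w - f' w) z v (a - a') (b - b') := by
  obtain ⟨g, hg, h0, h1⟩ := h
  obtain ⟨g', hg', h0', h1'⟩ := h'
  refine ⟨fun t => g t - g' t, ?_, by simp [h0, h0'], h1.sub h1'⟩
  filter_upwards [hg, hg'] with t ht ht'
  exact ht.sub ht'

theorem J2.mul {f f' : ℂ → ℝ} {z v : ℂ} {a b a' b' : ℝ} (h : J2 f z v a b) (h' : J2 f' z v a' b') :
    J2 (fun w => f w * f' w) z v (a * f' z + f z * a') (b * f' z + 2 * (a * a') + f z * b') := by
  obtain ⟨g, hg, h0, h1⟩ := h
  obtain ⟨g', hg', h0', h1'⟩ := h'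
  refine ⟨fun t => g t * f' (z + t * v) + f (z + t * v) * g' t, ?_, by simp [h0, h0'], ?_⟩
  · filter_upwards [hg, hg'] with t ht ht'
    exact ht.mul ht'
  · have e1 := h1.mul hg'.self_of_nhds
    have e2 := hg.self_of_nhds.mul h1'
    have e3 := e1.add e2
    refine e3.congr_deriv ?_
    simp only [h0, h0', ofReal_zero, zero_mul, add_zero]
    ring

theorem J2.const_mul {f : ℂ → ℝ} {z v : ℂ} {a b : ℝ} (c : ℝ) (h : J2 f z v a b) :
    J2 (fun w => c * f w) z v (c * a) (c * b) := by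
  have := (J2.const c z v).mul h
  simpa using this

/-- chain rule -/
theorem J2.comp {f : ℂ → ℝ} {z v : ℂ} {a b : ℝ} (h : J2 f z v a b) {k k' : ℝ → ℝ} {k'' : ℝ}
    (hk : ∀ᶠ x in 𝓝 (f z), HasDerivAt k (k' x) x) (hk' : HasDerivAt k' k'' (f z)) :
    J2 (fun w => k (f w)) z v (k' (f z) * a) (k'' * a ^ 2 + k' (f z) * b) := by
  obtain ⟨g, hg, h0, h1⟩ := h
  have hg0 := hg.self_of_nhds
  have hc : Tendsto (fun t : ℝ => f (z + t * v)) (𝓝 0) (𝓝 (f z)) := by
    have := hg0.continuousAt.tendsto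
    simpa using this
  refine ⟨fun t => k' (f (z + t * v)) * g t, ?_, by simp [h0], ?_⟩
  · filter_upwards [hg, hc.eventually hk] with t ht ht2
    exact ht2.comp t ht
  · have e0 : HasDerivAt (fun t : ℝ => k' (f (z + t * v))) (k'' * g 0) 0 := by
      have hk2 : HasDerivAt k' k'' (f (z + (0 : ℝ) * v)) := by simpa using hk'
      exact hk2.comp (0 : ℝ) hg0
    have e1 := e0.mul h1
    refine e1.congr_deriv ?_
    simp only [h0, ofReal_zero, zero_mul, add_zero]
    ring

/-- every function that is `C²` at `z` has a two-jet -/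
theorem J2.of_contDiffAt {f : ℂ → ℝ} {z : ℂ} (h : ContDiffAt ℝ 2 f z) (v : ℂ) :
    J2 f z v (fderiv ℝ f z v) (iteratedFDeriv ℝ 2 f z ![v, v]) := by
  have h1 : ∀ᶠ w in 𝓝 z, DifferentiableAt ℝ f w := by
    have := (h.eventually (by simp))
    filter_upwards [this] with w hw
    exact hw.differentiableAt (by norm_num)
  have h2 : DifferentiableAt ℝ (fderiv ℝ f) z :=
    (h.fderiv_right (m := 1) (by norm_num)).differentiableAt (by norm_num)
  have hlin : ∀ t : ℝ, HasDerivAt (fun t : ℝ => z + t * v) v t := by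
    intro t
    have := ((ofRealCLM.hasDerivAt (x := t)).mul_const v).const_add z
    simpa using this
  have hc : Tendsto (fun t : ℝ => z + t * v) (𝓝 0) (𝓝 z) := by
    have : Continuous fun t : ℝ => z + t * v := by fun_prop
    simpa using this.tendsto 0
  refine ⟨fun t => fderiv ℝ f (z + t * v) v, ?_, by simp, ?_⟩
  · filter_upwards [hc.eventually h1] with t ht
    exact ht.hasFDerivAt.comp_hasDerivAt t (hlin t)
  · rw [iteratedFDeriv_two_apply]
    have h3 : HasFDerivAt (fderiv ℝ f) (fderiv ℝ (fderiv ℝ f) z) (z + (0 : ℝ) * v) := by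
      simpa using h2.hasFDerivAt
    have h4 := h3.comp_hasDerivAt (0 : ℝ) (hlin 0)
    have h5 := h4.clm_apply (hasDerivAt_const (0 : ℝ) v)
    simpa using h5

theorem J2.unique {f : ℂ → ℝ} {z v : ℂ} {a b a' b' : ℝ} (h : J2 f z v a b) (h' : J2 f z v a' b') :
    a = a' ∧ b = b' := by
  obtain ⟨g, hg, h0, h1⟩ := h
  obtain ⟨g', hg', h0', h1'⟩ := h'
  have he : g =ᶠ[𝓝 0] g' := by
    filter_upwards [hg, hg'] with t ht ht'
    exact ht.unique ht'
  refine ⟨by rw [← h0, ← h0', he.self_of_nhds], ?_⟩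
  exact (h1.congr_of_eventuallyEq he.symm).unique h1'

/-- the Laplacian from the two-jets along `1` and `I` -/
theorem lap_of_J2 {f : ℂ → ℝ} {z : ℂ} (h : ContDiffAt ℝ 2 f z) {a b a' b' : ℝ}
    (h1 : J2 f z 1 a b) (h2 : J2 f z I a' b') : Δ f z = b + b' := by
  rw [laplacian_eq_iteratedFDeriv_complexPlane]
  have e1 := (J2.of_contDiffAt h 1).unique h1
  have e2 := (J2.of_contDiffAt h I).unique h2
  simp only [e1.2, e2.2]

/-- jets of a complex differentiable function, real part: `Re (c F)` -/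
theorem J2.re_holo {F F' : ℂ → ℂ} {F'' : ℂ} {z : ℂ} (v : ℂ) (c : ℂ)
    (h : ∀ᶠ w in 𝓝 z, HasDerivAt F (F' w) w) (h' : HasDerivAt F' F'' z) :
    J2 (fun w => (c * F w).re) z v ((c * (F' z * v)).re) ((c * (F'' * v * v)).re) := by
  have hlin : ∀ t : ℝ, HasDerivAt (fun t : ℝ => z + t * v) v t := by
    intro t
    have := ((ofRealCLM.hasDerivAt (x := t)).mul_const v).const_add z
    simpa using this
  have hc : Tendsto (fun t : ℝ => z + t * v) (𝓝 0) (𝓝 z) := by
    have : Continuous fun t : ℝ => z + t * v := by fun_prop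
    simpa using this.tendsto 0
  refine ⟨fun t => (c * (F' (z + t * v) * v)).re, ?_, by simp, ?_⟩
  · filter_upwards [hc.eventually h] with t ht
    have h3 := ht.comp_of_eq t (hlin t) rfl
    have h4 := (h3.const_mul c)
    exact reCLM.hasFDerivAt.comp_hasDerivAt t h4
  · have h3 : HasDerivAt F' F'' (z + (0 : ℝ) * v) := by simpa using h'
    have h4 := ((h3.comp_of_eq (0 : ℝ) (hlin 0) rfl).mul_const v).const_mul c
    exact reCLM.hasFDerivAt.comp_hasDerivAt (0 : ℝ) h4

end P365T2.H942
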