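import Vale.Agent.P365.V4.Start77

set_option linter.all false

/-!
# P365-T2: second moment of the local energies at START (row X-START2 / (k7)), helper942

Local test functions (vector form, supported in `S`), any profile which is at least `32/3` at the
good sites, any symmetric matrix dominated by the adjacency of the torus:
`E (∑ k, En F_k)² ≤ (162 Λf² |S|)²`, uniformly in everything.
-/

namespace P365T2.H942

open P365L P365O P365T1 P365L.TL MeasureTheory Vale.Agent.P365.J376 Matrix Complex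
open scoped ComplexConjugate

/-! ### the numerical series -/

theorem sum_sq_geom (M : ℕ) : ∑ n ∈ Finset.range M, (n : ℝ) ^ 2 * (3 / 5) ^ n ≤ 15 := by
  have h : ∀ M : ℕ, ∑ n ∈ Finset.range M, (n : ℝ) ^ 2 * (3 / 5) ^ n =
      15 - (3 / 5) ^ M * (5 / 2 * (M : ℝ) ^ 2 + 15 / 2 * M + 15) := by
    intro M
    induction M with
    | zero => simp
    | succ M ih =>
      rw [Finset.sum_range_succ, ih, pow_succ]
      push_cast
      ring
  rw [h]
  have : (0 : ℝ) ≤ (3 / 5) ^ M * (5 / 2 * (M : ℝ) ^ 2 + 15 / 2 * M + 15) := by positivity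
  linarith

/-! ### the path expansion, squared -/

section path

variable {ι : Type*} [DecidableEq ι] [Fintype ι]

/-- index set of the path expansion -/
def PJ (nb : ι → Finset ι) (b : ι) : Finset (Σ _ : ℕ, List ι) :=
  (Finset.range (Fintype.card ι)).sigma fun n => (Qp nb b n).filter fun l => l.Nodup

theorem mem_PJ {nb : ι → Finset ι} {b : ι} {j : Σ _ : ℕ, List ι} (h : j ∈ PJ nb b) :
    j.2 ∈ Qp nb b j.1 ∧ j.2.Nodup := by
  unfold PJ at h
  rw [Finset.mem_sigma, Finset.mem_filter] at h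
  exact h.2

/-- weight of a path -/
noncomputable def wt9 (n : ℕ) : ℝ := (n : ℝ) ^ 2 * (1 / 9) ^ n

theorem wt9_nonneg (n : ℕ) : 0 ≤ wt9 n := by unfold wt9; positivity

theorem sum_wt (nb : ι → Finset ι) (b : ι) (hΔ : ∀ x, (nb x).card ≤ 4) :
    ∑ j ∈ PJ nb b, wt9 j.1 * (27 / 20) ^ (j.1 + 1) ≤ 81 / 4 := by
  unfold PJ
  rw [Finset.sum_sigma]
  calc ∑ n ∈ Finset.range (Fintype.card ι), ∑ l ∈ (Qp nb b n).filter (fun l => l.Nodup),
        wt9 n * (27 / 20 : ℝ) ^ (n + 1)
      ≤ ∑ n ∈ Finset.range (Fintype.card ι), 27 / 20 * ((n : ℝ) ^ 2 * (3 / 5) ^ n) := by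
        refine Finset.sum_le_sum fun n _ => ?_
        rw [Finset.sum_const, nsmul_eq_mul]
        have h1 : (((Qp nb b n).filter (fun l => l.Nodup)).card : ℝ) ≤ (4 : ℝ) ^ n := by
          exact_mod_cast (Finset.card_filter_le _ _).trans (card_Qp_le hΔ b n)
        have h2 : 0 ≤ wt9 n * (27 / 20 : ℝ) ^ (n + 1) := by
          have := wt9_nonneg n
          positivity
        calc (((Qp nb b n).filter (fun l => l.Nodup)).card : ℝ) * (wt9 n * (27 / 20 : ℝ) ^ (n + 1))
            ≤ (4 : ℝ) ^ n * (wt9 n * (27 / 20 : ℝ) ^ (n + 1)) :=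
              mul_le_mul_of_nonneg_right h1 h2
          _ = 27 / 20 * ((n : ℝ) ^ 2 * (3 / 5) ^ n) := by
              have h3 : (3 / 5 : ℝ) ^ n = 4 ^ n * ((1 / 9) ^ n * (27 / 20) ^ n) := by
                rw [← mul_pow, ← mul_pow]
                norm_num
              rw [h3, pow_succ, wt9]
              ring
    _ ≤ 81 / 4 := by
        rw [← Finset.mul_sum]
        have := sum_sq_geom (Fintype.card ι)
        linarith

/-- squared path expansion, `μ = log 3` -/
theorem sq_sum_exp_le {nb : ι → Finset ι} {b : ι} (h : Conn nb b) (B : Finset ι) {g : ι → ℕ}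
    (hg0 : g b = 0) (hg : ∀ x, ∀ y ∈ nb x, g y ≤ g x + 1) (hΔ : ∀ x, (nb x).card ≤ 4) :
    (∑ a, (g a : ℝ) ^ 2 * Real.exp (-2 * Real.log 3 * dg nb B b a)) ^ 2 ≤
      81 / 4 * ∑ j ∈ PJ nb b, wt9 j.1 * (20 / 27) ^ (j.1 + 1) *
        (6561 : ℝ) ^ (j.2.countP (fun z => decide (z ∈ B))) := by
  have hlog : 0 ≤ Real.log 3 := Real.log_nonneg (by norm_num)
  have h3 : Real.exp (Real.log 3) = 3 := Real.exp_log (by norm_num)
  have h1 := sum_exp_le h B hg0 hg hlog
  have e1 : ∀ n : ℕ, Real.exp (-2 * Real.log 3 * n) = (1 / 9) ^ n := by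
    intro n
    have : -2 * Real.log 3 * n = n * -((2 : ℕ) * Real.log 3) := by push_cast; ring
    rw [this, Real.exp_nat_mul, Real.exp_neg, Real.exp_nat_mul, h3]
    norm_num
  have e2 : ∀ c : ℕ, Real.exp (4 * Real.log 3 * c) = 81 ^ c := by
    intro c
    have : 4 * Real.log 3 * c = c * ((4 : ℕ) * Real.log 3) := by push_cast; ring
    rw [this, Real.exp_nat_mul, Real.exp_nat_mul, h3]
    norm_num
  have e3 : ∑ n ∈ Finset.range (Fintype.card ι), ∑ l ∈ (Qp nb b n).filter (fun l => l.Nodup),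
        (n : ℝ) ^ 2 * (Real.exp (-2 * Real.log 3 * n) *
          Real.exp (4 * Real.log 3 * (l.countP (fun z => decide (z ∈ B)) : ℕ))) =
      ∑ j ∈ PJ nb b, wt9 j.1 * (81 : ℝ) ^ (j.2.countP (fun z => decide (z ∈ B))) := by
    unfold PJ
    rw [Finset.sum_sigma]
    refine Finset.sum_congr rfl fun n _ => Finset.sum_congr rfl fun l _ => ?_
    rw [e1, e2, wt9]
    ring
  rw [e3] at h1
  have h0 : 0 ≤ ∑ a, (g a : ℝ) ^ 2 * Real.exp (-2 * Real.log 3 * dg nb B b a) :=
    Finset.sum_nonneg fun a _ => mul_nonneg (sq_nonneg _) (Real.exp_pos _).le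
  have h2 := pow_le_pow_left₀ h0 h1 2
  refine h2.trans ?_
  have h4 := Finset.sum_mul_sq_le_sq_mul_sq (PJ nb b)
    (fun j => Real.sqrt (wt9 j.1 * (27 / 20) ^ (j.1 + 1)))
    (fun j => Real.sqrt (wt9 j.1 * (20 / 27) ^ (j.1 + 1)) *
      (81 : ℝ) ^ (j.2.countP (fun z => decide (z ∈ B))))
  have e4 : ∀ j : Σ _ : ℕ, List ι, Real.sqrt (wt9 j.1 * (27 / 20) ^ (j.1 + 1)) *
      (Real.sqrt (wt9 j.1 * (20 / 27) ^ (j.1 + 1)) *
      (81 : ℝ) ^ (j.2.countP (fun z => decide (z ∈ B)))) =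
      wt9 j.1 * (81 : ℝ) ^ (j.2.countP (fun z => decide (z ∈ B))) := by
    intro j
    have hw := wt9_nonneg j.1
    rw [← mul_assoc, ← Real.sqrt_mul (by positivity)]
    have e5 : wt9 j.1 * (27 / 20) ^ (j.1 + 1) * (wt9 j.1 * (20 / 27) ^ (j.1 + 1)) =
        wt9 j.1 ^ 2 := by
      have : (27 / 20 : ℝ) ^ (j.1 + 1) * (20 / 27) ^ (j.1 + 1) = 1 := by
        rw [← mul_pow]; norm_num
      calc wt9 j.1 * (27 / 20) ^ (j.1 + 1) * (wt9 j.1 * (20 / 27) ^ (j.1 + 1))
          = wt9 j.1 ^ 2 * ((27 / 20 : ℝ) ^ (j.1 + 1) * (20 / 27) ^ (j.1 + 1)) := by ring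
        _ = _ := by rw [this, mul_one]
    rw [e5, Real.sqrt_sq hw]
  rw [Finset.sum_congr rfl fun j _ => e4 j] at h4
  refine h4.trans ?_
  have e6 : ∑ j ∈ PJ nb b, Real.sqrt (wt9 j.1 * (27 / 20) ^ (j.1 + 1)) ^ 2 ≤ 81 / 4 := by
    refine le_trans (le_of_eq ?_) (sum_wt nb b hΔ)
    refine Finset.sum_congr rfl fun j _ => ?_
    have hw := wt9_nonneg j.1
    rw [Real.sq_sqrt (by positivity)]
  have e7 : ∑ j ∈ PJ nb b, (Real.sqrt (wt9 j.1 * (20 / 27) ^ (j.1 + 1)) *
      (81 : ℝ) ^ (j.2.countP (fun z => decide (z ∈ B)))) ^ 2 =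
      ∑ j ∈ PJ nb b, wt9 j.1 * (20 / 27) ^ (j.1 + 1) *
        (6561 : ℝ) ^ (j.2.countP (fun z => decide (z ∈ B))) := by
    refine Finset.sum_congr rfl fun j _ => ?_
    have hw := wt9_nonneg j.1
    rw [mul_pow, Real.sq_sqrt (by positivity), ← pow_mul, mul_comm _ 2, pow_mul]
    norm_num
  rw [e7]
  refine mul_le_mul_of_nonneg_right e6 (Finset.sum_nonneg fun j _ => ?_)
  have hw := wt9_nonneg j.1
  positivity

end path

/-! ### label average -/

section labels

variable {ι : Type*} [DecidableEq ι] [Fintype ι] {Λ : Type*} [Fintype Λ] [DecidableEq Λ]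

/-- exponential moment of the number of bad sites of a self-avoiding list -/
theorem sum_labels_count (p : Λ → ℝ) (hp : ∀ l, 0 ≤ p l) (hp1 : ∑ l, p l = 1)
    (good : Λ) (h1 : 1 - p good ≤ 1 / 8192) (l : List ι) (hl : l.Nodup) :
    ∑ L : ι → Λ, (∏ x, p (L x)) *
      (6561 : ℝ) ^ (l.countP (fun z => decide (z ∈ Finset.univ.filter fun x => L x ≠ good))) ≤
      ((27 / 20) ^ 2) ^ l.length := by
  classical
  have e1 : ∀ L : ι → Λ,
      (6561 : ℝ) ^ (l.countP (fun z => decide (z ∈ Finset.univ.filter fun x => L x ≠ good))) =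
      ∏ x, (if x ∈ l ∧ L x ≠ good then (6561 : ℝ) else 1) := by
    intro L
    rw [Finset.prod_ite, Finset.prod_const_one, mul_one, Finset.prod_const]
    congr 1
    rw [List.countP_eq_length_filter, ← List.toFinset_card_of_nodup (hl.filter _)]
    congr 1
    ext x
    simp
  have e2 : ∑ L : ι → Λ, (∏ x, p (L x)) *
      (6561 : ℝ) ^ (l.countP (fun z => decide (z ∈ Finset.univ.filter fun x => L x ≠ good))) =
      ∏ x : ι, ∑ k : Λ, p k * (if x ∈ l ∧ k ≠ good then (6561 : ℝ) else 1) := by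
    rw [Finset.prod_univ_sum, Fintype.piFinset_univ]
    refine Finset.sum_congr rfl fun L _ => ?_
    rw [e1, Finset.prod_mul_distrib]
  rw [e2]
  have e3 : ∀ x : ι, ∑ k : Λ, p k * (if x ∈ l ∧ k ≠ good then (6561 : ℝ) else 1) ≤
      if x ∈ l then (27 / 20) ^ 2 else 1 := by
    intro x
    by_cases hx : x ∈ l
    · rw [if_pos hx]
      have e4 : ∀ k : Λ, p k * (if x ∈ l ∧ k ≠ good then (6561 : ℝ) else 1) =
          6561 * p k - (if k = good then 6560 * p k else 0) := by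
        intro k
        by_cases hk : k = good
        · simp [hx, hk]; ring
        · simp [hx, hk]; ring
      rw [Finset.sum_congr rfl fun k _ => e4 k, Finset.sum_sub_distrib, ← Finset.mul_sum, hp1,
        Finset.sum_ite_eq' Finset.univ good, if_pos (Finset.mem_univ _)]
      norm_num
      linarith
    · rw [if_neg hx]
      simp [hx, hp1]
  refine (Finset.prod_le_prod (fun x _ => Finset.sum_nonneg fun k _ => ?_) fun x _ => e3 x).trans ?_
  · refine mul_nonneg (hp k) ?_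
    split_ifs <;> norm_num
  · rw [Finset.prod_ite, Finset.prod_const_one, mul_one, Finset.prod_const]
    have e5 : (Finset.univ.filter fun x => x ∈ l).card = l.length := by
      rw [← List.toFinset_card_of_nodup hl]
      congr 1
      ext x
      simp
    rw [e5]

end labels

/-! ### the torus -/

section torus

variable {N : ℕ} [NeZero N]

/-- the majorant at one site, `μ = log 3` -/
noncomputable def FB2 (N : ℕ) [NeZero N] (b : Tor N) (S : Finset (Tor N)) : ℝ :=
  4 * ∑ a, (nrm (a - b) : ℝ) ^ 2 * Real.exp (-2 * Real.log 3 * dg (nbT N) S b a)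

theorem FB2_nonneg (b : Tor N) (S : Finset (Tor N)) : 0 ≤ FB2 N b S :=
  mul_nonneg (by norm_num)
    (Finset.sum_nonneg fun a _ => mul_nonneg (sq_nonneg _) (Real.exp_pos _).le)

theorem sinh_log_three : 8 * Real.sinh (Real.log 3) ≤ 32 / 3 := by
  rw [Real.sinh_eq, Real.exp_neg, Real.exp_log (by norm_num)]
  norm_num

/-- **second moment of the majorant** -/
theorem FB2_sq_labels {Λ : Type*} [Fintype Λ] [DecidableEq Λ] (b : Tor N) (p : Λ → ℝ)
    (hp : ∀ l, 0 ≤ p l) (hp1 : ∑ l, p l = 1) (good : Λ) (h1 : 1 - p good ≤ 1 / 8192) :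
    ∑ L : Tor N → Λ, (∏ x, p (L x)) *
      FB2 N b (Finset.univ.filter fun x => L x ≠ good) ^ 2 ≤ 6561 := by
  classical
  have hg : ∀ x, ∀ y ∈ nbT N x, nrm (y - b) ≤ nrm (x - b) + 1 := by
    intro x y hy
    have h2 : y - b = (x - b) + (y - x) := by abel
    rw [h2]
    exact (nrm_add_le _ _).trans (Nat.add_le_add_left (nrm_nbs (mem_nbT.1 hy)) _)
  have hstep : ∀ L : Tor N → Λ, FB2 N b (Finset.univ.filter fun x => L x ≠ good) ^ 2 ≤
      324 * ∑ j ∈ PJ (nbT N) b, wt9 j.1 * (20 / 27) ^ (j.1 + 1) *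
        (6561 : ℝ) ^ (j.2.countP (fun z => decide (z ∈ Finset.univ.filter fun x => L x ≠ good))) := by
    intro L
    have h2 := sq_sum_exp_le (nb := nbT N) (b := b) (conn_tor b)
      (Finset.univ.filter fun x => L x ≠ good) (g := fun a => nrm (a - b))
      (by simp only [sub_self]; exact nrm_zero) hg (fun x => card_nbT_le x)
    unfold FB2
    rw [mul_pow]
    calc (4 : ℝ) ^ 2 * (∑ a, (nrm (a - b) : ℝ) ^ 2 * Real.exp (-2 * Real.log 3 *
          dg (nbT N) (Finset.univ.filter fun x => L x ≠ good) b a)) ^ 2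
        ≤ 4 ^ 2 * (81 / 4 * ∑ j ∈ PJ (nbT N) b, wt9 j.1 * (20 / 27) ^ (j.1 + 1) *
        (6561 : ℝ) ^ (j.2.countP (fun z => decide (z ∈ Finset.univ.filter fun x => L x ≠ good)))) :=
          mul_le_mul_of_nonneg_left h2 (by norm_num)
      _ = _ := by ring
  calc ∑ L : Tor N → Λ, (∏ x, p (L x)) *
        FB2 N b (Finset.univ.filter fun x => L x ≠ good) ^ 2
      ≤ ∑ L : Tor N → Λ, (∏ x, p (L x)) * (324 * ∑ j ∈ PJ (nbT N) b,
        wt9 j.1 * (20 / 27) ^ (j.1 + 1) *
        (6561 : ℝ) ^ (j.2.countP (fun z => decide (z ∈ Finset.univ.filter fun x => L x ≠ good)))) :=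
        Finset.sum_le_sum fun L _ => mul_le_mul_of_nonneg_left (hstep L)
          (Finset.prod_nonneg fun x _ => hp _)
    _ = 324 * ∑ j ∈ PJ (nbT N) b, wt9 j.1 * (20 / 27) ^ (j.1 + 1) *
        ∑ L : Tor N → Λ, (∏ x, p (L x)) *
        (6561 : ℝ) ^ (j.2.countP (fun z => decide (z ∈ Finset.univ.filter fun x => L x ≠ good))) := by
        have e1 : ∀ L : Tor N → Λ, (∏ x, p (L x)) * (324 * ∑ j ∈ PJ (nbT N) b,
            wt9 j.1 * (20 / 27) ^ (j.1 + 1) * (6561 : ℝ) ^ (j.2.countP (fun z =>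
              decide (z ∈ Finset.univ.filter fun x => L x ≠ good)))) =
            ∑ j ∈ PJ (nbT N) b, 324 * (wt9 j.1 * (20 / 27) ^ (j.1 + 1) * ((∏ x, p (L x)) *
              (6561 : ℝ) ^ (j.2.countP (fun z =>
              decide (z ∈ Finset.univ.filter fun x => L x ≠ good))))) := by
          intro L
          rw [Finset.mul_sum, Finset.mul_sum]
          exact Finset.sum_congr rfl fun j _ => by ring
        rw [Finset.sum_congr rfl fun L _ => e1 L, Finset.sum_comm, Finset.mul_sum]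
        refine Finset.sum_congr rfl fun j _ => ?_
        rw [Finset.mul_sum, Finset.mul_sum]
    _ ≤ 324 * ∑ j ∈ PJ (nbT N) b, wt9 j.1 * (27 / 20) ^ (j.1 + 1) := by
        refine mul_le_mul_of_nonneg_left (Finset.sum_le_sum fun j hj => ?_) (by norm_num)
        have h2 := mem_PJ hj
        have h3 := sum_labels_count p hp hp1 good h1 j.2 h2.2
        rw [length_of_mem_Qp h2.1] at h3
        have hw := wt9_nonneg j.1
        calc wt9 j.1 * (20 / 27) ^ (j.1 + 1) * ∑ L : Tor N → Λ, (∏ x, p (L x)) *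
              (6561 : ℝ) ^ (j.2.countP (fun z =>
                decide (z ∈ Finset.univ.filter fun x => L x ≠ good)))
            ≤ wt9 j.1 * (20 / 27) ^ (j.1 + 1) * ((27 / 20) ^ 2) ^ (j.1 + 1) :=
              mul_le_mul_of_nonneg_left h3 (by positivity)
          _ = wt9 j.1 * (27 / 20) ^ (j.1 + 1) := by
              rw [mul_assoc, ← mul_pow]
              norm_num
    _ ≤ 324 * (81 / 4) :=
        mul_le_mul_of_nonneg_left (sum_wt (nbT N) b fun x => card_nbT_le x) (by norm_num)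
    _ = 6561 := by norm_num

/-! ### the energies -/

section det

variable {A : Matrix (Tor N) (Tor N) ℝ} {W : Tor N → ℂ}

/-- one column, `μ = log 3` -/
theorem colA2 (hs : A.IsSymm) (hA : ∀ x y, |A x y| ≤ AT N x y)
    (hW : ∀ x, (W x).im < 0) (B : Finset (Tor N))
    (hbig : ∀ x, x ∉ B → 32 / 3 ≤ -(W x).im) (b : Tor N) :
    (-(W b).im) * ∑ a, (-(W a).im) * KK A W a b * (nrm (a - b) : ℝ) ^ 2 ≤ FB2 N b B := by
  obtain ⟨μ, hμd⟩ : ∃ μ, μ = Real.log 3 := ⟨_, rfl⟩
  have hμ : 0 ≤ μ := by rw [hμd]; exact Real.log_nonneg (by norm_num)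
  have hbig' : ∀ x, x ∉ B → 8 * Real.sinh μ ≤ -(W x).im := fun x hx => by
    rw [hμd]; exact sinh_log_three.trans (hbig x hx)
  have h1 := CT_col hs hW (φ := fun x => μ * dg (nbT N) B b x)
    (fun x => P365V4.Start77.weight_okA hA hW B hμ hbig' b x) b
  have he : ∀ x, 0 ≤ -(W x).im := fun x => by linarith [hW x]
  have h2 : ∀ a, (-(W b).im) * ((-(W a).im) * KK A W a b) ≤
      4 * Real.exp (-2 * μ * dg (nbT N) B b a) := by
    intro a
    have h3 : (-(W a).im) * KK A W a b * Real.exp (2 * (μ * dg (nbT N) B b a -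
        μ * dg (nbT N) B b b)) ≤ ∑ a, (-(W a).im) * KK A W a b *
        Real.exp (2 * (μ * dg (nbT N) B b a - μ * dg (nbT N) B b b)) :=
      Finset.single_le_sum (f := fun a => (-(W a).im) * KK A W a b *
        Real.exp (2 * (μ * dg (nbT N) B b a - μ * dg (nbT N) B b b)))
        (fun x _ => mul_nonneg (mul_nonneg (he x) (KK_nonneg _ _)) (Real.exp_pos _).le)
        (Finset.mem_univ a)
    have h4 := (mul_le_mul_of_nonneg_left h3 (he b)).trans h1
    rw [dg_self, Nat.cast_zero, mul_zero, sub_zero] at h4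
    have h5 : Real.exp (2 * (μ * dg (nbT N) B b a)) * Real.exp (-2 * μ * dg (nbT N) B b a) = 1 := by
      rw [← Real.exp_add]
      have : 2 * (μ * dg (nbT N) B b a) + -2 * μ * dg (nbT N) B b a = 0 := by ring
      rw [this, Real.exp_zero]
    calc (-(W b).im) * ((-(W a).im) * KK A W a b)
        = (-(W b).im) * ((-(W a).im) * KK A W a b *
          Real.exp (2 * (μ * dg (nbT N) B b a))) * Real.exp (-2 * μ * dg (nbT N) B b a) := by
          have : ∀ u v p q : ℝ, p * q = 1 → u * v = u * (v * p) * q := by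
            intro u v p q h
            calc u * v = u * v * (p * q) := by rw [h, mul_one]
              _ = _ := by ring
          exact this _ _ _ _ h5
      _ ≤ 4 * Real.exp (-2 * μ * dg (nbT N) B b a) :=
          mul_le_mul_of_nonneg_right h4 (Real.exp_pos _).le
  unfold FB2
  rw [← hμd, Finset.mul_sum, Finset.mul_sum]
  refine Finset.sum_le_sum fun a _ => ?_
  have h6 := mul_le_mul_of_nonneg_left (h2 a) (sq_nonneg (nrm (a - b) : ℝ))
  calc (-(W b).im) * ((-(W a).im) * KK A W a b * (nrm (a - b) : ℝ) ^ 2)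
      = (nrm (a - b) : ℝ) ^ 2 * ((-(W b).im) * ((-(W a).im) * KK A W a b)) := by ring
    _ ≤ _ := h6
    _ = _ := by ring

/-- the energy of a family whose increments have a weight `ω` -/
theorem EnA2 (hs : A.IsSymm) (hA : ∀ x y, |A x y| ≤ AT N x y)
    (hW : ∀ x, (W x).im < 0) (B : Finset (Tor N))
    (hbig : ∀ x, x ∉ B → 32 / 3 ≤ -(W x).im) {κ : Type*} [Fintype κ] {F : κ → Tor N → ℝ}
    {ω : Tor N → ℝ} (hω : ∀ x, 0 ≤ ω x)
    (hF : ∀ x y, ∑ k, (F k x - F k y) ^ 2 ≤ (ω x + ω y) * (nrm (x - y) : ℝ) ^ 2) :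
    ∑ k, En A W (F k) ≤ 2 * ∑ b, ω b * FB2 N b B := by
  have he : ∀ x, 0 ≤ -(W x).im := fun x => by linarith [hW x]
  obtain ⟨T, hT⟩ : ∃ T : Tor N → Tor N → ℝ, ∀ a b, T a b =
      (-(W a).im) * (-(W b).im) * KK A W a b * (nrm (a - b) : ℝ) ^ 2 := ⟨_, fun _ _ => rfl⟩
  have hTs : ∀ a b, T a b = T b a := by
    intro a b
    rw [hT, hT, KK_symm hs a b, nrm_sub_comm a b]
    ring
  have e1 : ∑ k, En A W (F k) = ∑ b, ∑ a, (-(W a).im) * (-(W b).im) * KK A W a b *
      ∑ k, (F k a - F k b) ^ 2 := by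
    unfold En
    simp only [Finset.mul_sum]
    calc ∑ k, ∑ x, ∑ y, (-(W x).im) * (-(W y).im) * KK A W x y * (F k x - F k y) ^ 2
        = ∑ k, ∑ y, ∑ x, (-(W x).im) * (-(W y).im) * KK A W x y * (F k x - F k y) ^ 2 :=
          Finset.sum_congr rfl fun k _ => Finset.sum_comm
      _ = ∑ y, ∑ k, ∑ x, (-(W x).im) * (-(W y).im) * KK A W x y * (F k x - F k y) ^ 2 :=
          Finset.sum_comm
      _ = _ := Finset.sum_congr rfl fun y _ => Finset.sum_comm
  have e2 : ∑ b, ∑ a, (-(W a).im) * (-(W b).im) * KK A W a b * ∑ k, (F k a - F k b) ^ 2 ≤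
      ∑ b, ∑ a, (ω b * T a b + ω a * T a b) := by
    refine Finset.sum_le_sum fun b _ => Finset.sum_le_sum fun a _ => ?_
    have h2 : 0 ≤ (-(W a).im) * (-(W b).im) * KK A W a b :=
      mul_nonneg (mul_nonneg (he a) (he b)) (KK_nonneg _ _)
    calc (-(W a).im) * (-(W b).im) * KK A W a b * ∑ k, (F k a - F k b) ^ 2
        ≤ (-(W a).im) * (-(W b).im) * KK A W a b * ((ω a + ω b) * (nrm (a - b) : ℝ) ^ 2) :=
          mul_le_mul_of_nonneg_left (hF a b) h2
      _ = _ := by rw [hT]; ring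
  have e3 : ∑ b, ∑ a, (ω b * T a b + ω a * T a b) = 2 * ∑ b, ω b * ∑ a, T a b := by
    have h1 : ∑ b, ∑ a, ω a * T a b = ∑ b, ∑ a, ω b * T a b := by
      rw [Finset.sum_comm]
      exact Finset.sum_congr rfl fun b _ => Finset.sum_congr rfl fun a _ => by rw [hTs]
    simp only [Finset.sum_add_distrib, h1]
    rw [← two_mul]
    congr 1
    exact Finset.sum_congr rfl fun b _ => (Finset.mul_sum _ _ _).symm
  rw [e1]
  refine e2.trans (e3.le.trans ?_)
  refine mul_le_mul_of_nonneg_left (Finset.sum_le_sum fun b _ =>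
    mul_le_mul_of_nonneg_left ?_ (hω b)) (by norm_num)
  refine le_trans (le_of_eq ?_) (colA2 hs hA hW B hbig b)
  rw [Finset.mul_sum]
  exact Finset.sum_congr rfl fun a _ => by rw [hT]; ring

end det

section final

variable {Λ : Type*} [Fintype Λ] [DecidableEq Λ]

/-- **START, second moment (weighted form)** -/
theorem start2 {A : Matrix (Tor N) (Tor N) ℝ} (hs : A.IsSymm) (hA : ∀ x y, |A x y| ≤ AT N x y)
    {p : Λ → ℝ} (hp : ∀ l, 0 ≤ p l) (hp1 : ∑ l, p l = 1) {good : Λ} (h1 : 1 - p good ≤ 1 / 8192)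
    {ν : Λ → Measure ℝ} (hν : ∀ k, IsProbabilityMeasure (ν k)) (E : ℝ)
    {e : (Tor N → Λ) → Tor N → ℝ} (he : ∀ l x, 0 < e l x)
    (hbig : ∀ l x, l x = good → 32 / 3 ≤ e l x)
    {κ : Type*} [Fintype κ] {F : κ → Tor N → ℝ} {ω : Tor N → ℝ} (hω : ∀ x, 0 ≤ ω x)
    (hF : ∀ x y, ∑ k, (F k x - F k y) ^ 2 ≤ (ω x + ω y) * (nrm (x - y) : ℝ) ^ 2) :
    AvG p ν E e (fun _ W => (∑ k, En A W (F k)) ^ 2) ≤ (162 * ∑ x, ω x) ^ 2 := by
  classical
  haveI := hν
  obtain ⟨B, hB⟩ : ∃ B : (Tor N → Λ) → Finset (Tor N),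
      B = fun l => Finset.univ.filter fun x => l x ≠ good := ⟨_, rfl⟩
  have hBm : ∀ l x, x ∈ B l ↔ l x ≠ good := by
    intro l x
    rw [hB]
    simp
  have hEx : ∀ l : Tor N → Λ, Ex (fun x => ν (l x)) E (e l) (fun W => (∑ k, En A W (F k)) ^ 2) ≤
      4 * ((∑ x, ω x) * ∑ b, ω b * FB2 N b (B l) ^ 2) := by
    intro l
    have him : ∀ v x, (WV E (e l) v x).im < 0 := by
      intro v x
      have h2 : (WV E (e l) v x).im = -e l x := by simp [WV]
      rw [h2]
      linarith [he l x]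
    unfold Ex
    have h0 : ∀ v, 0 ≤ ∑ k, En A (WV E (e l) v) (F k) := fun v =>
      Finset.sum_nonneg fun k _ => Finset.sum_nonneg fun x _ => Finset.sum_nonneg fun y _ =>
        mul_nonneg (mul_nonneg (mul_nonneg (by linarith [him v x]) (by linarith [him v y]))
          (KK_nonneg _ _)) (sq_nonneg _)
    have h3 : ∀ v, (∑ k, En A (WV E (e l) v) (F k)) ^ 2 ≤
        4 * ((∑ x, ω x) * ∑ b, ω b * FB2 N b (B l) ^ 2) := by
      intro v
      have h4 : ∑ k, En A (WV E (e l) v) (F k) ≤ 2 * ∑ b, ω b * FB2 N b (B l) := by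
        refine EnA2 hs hA (him v) (B l) (fun x hx => ?_) hω hF
        have h2 : (WV E (e l) v x).im = -e l x := by simp [WV]
        rw [h2, neg_neg]
        refine hbig l x ?_
        by_contra hcon
        exact hx ((hBm l x).2 hcon)
      refine (pow_le_pow_left₀ (h0 v) h4 2).trans ?_
      rw [mul_pow]
      have h5 := Finset.sum_mul_sq_le_sq_mul_sq Finset.univ (fun b => Real.sqrt (ω b))
        (fun b => Real.sqrt (ω b) * FB2 N b (B l))
      have e4 : ∀ b, Real.sqrt (ω b) * (Real.sqrt (ω b) * FB2 N b (B l)) =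
          ω b * FB2 N b (B l) := by
        intro b
        rw [← mul_assoc, Real.mul_self_sqrt (hω b)]
      have e5 : ∀ b, Real.sqrt (ω b) ^ 2 = ω b := fun b => Real.sq_sqrt (hω b)
      have e6 : ∀ b, (Real.sqrt (ω b) * FB2 N b (B l)) ^ 2 = ω b * FB2 N b (B l) ^ 2 := by
        intro b
        rw [mul_pow, e5]
      rw [Finset.sum_congr rfl fun b _ => e4 b, Finset.sum_congr rfl fun b _ => e5 b,
        Finset.sum_congr rfl fun b _ => e6 b] at h5
      have h6 : (2 : ℝ) ^ 2 * (∑ b, ω b * FB2 N b (B l)) ^ 2 ≤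
          2 ^ 2 * ((∑ x, ω x) * ∑ b, ω b * FB2 N b (B l) ^ 2) :=
        mul_le_mul_of_nonneg_left h5 (by norm_num)
      linarith
    refine (integral_mono_of_nonneg (Filter.Eventually.of_forall fun v => sq_nonneg _)
      (integrable_const _) (Filter.Eventually.of_forall h3)).trans ?_
    simp
  have hS : 0 ≤ ∑ x, ω x := Finset.sum_nonneg fun x _ => hω x
  unfold AvG
  calc ∑ l : Tor N → Λ, (∏ x, p (l x)) * Ex (fun x => ν (l x)) E (e l)
        (fun W => (∑ k, En A W (F k)) ^ 2)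
      ≤ ∑ l : Tor N → Λ, (∏ x, p (l x)) * (4 * ((∑ x, ω x) * ∑ b, ω b * FB2 N b (B l) ^ 2)) :=
        Finset.sum_le_sum fun l _ => mul_le_mul_of_nonneg_left (hEx l)
          (Finset.prod_nonneg fun x _ => hp _)
    _ = 4 * (∑ x, ω x) * ∑ b, ω b * ∑ l : Tor N → Λ, (∏ x, p (l x)) * FB2 N b (B l) ^ 2 := by
        have e1 : ∀ l : Tor N → Λ,
            (∏ x, p (l x)) * (4 * ((∑ x, ω x) * ∑ b, ω b * FB2 N b (B l) ^ 2)) =
            ∑ b, 4 * (∑ x, ω x) * (ω b * ((∏ x, p (l x)) * FB2 N b (B l) ^ 2)) := by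
          intro l
          have h2 : ∑ b, ω b * ((∏ x, p (l x)) * FB2 N b (B l) ^ 2) =
              (∏ x, p (l x)) * ∑ b, ω b * FB2 N b (B l) ^ 2 := by
            rw [Finset.mul_sum]
            exact Finset.sum_congr rfl fun b _ => by ring
          have h3 : ∑ b, 4 * (∑ x, ω x) * (ω b * ((∏ x, p (l x)) * FB2 N b (B l) ^ 2)) =
              4 * (∑ x, ω x) * ∑ b, ω b * ((∏ x, p (l x)) * FB2 N b (B l) ^ 2) :=
            (Finset.mul_sum _ _ _).symm
          rw [h3, h2]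
          ring
        refine (Finset.sum_congr rfl fun l _ => e1 l).trans ?_
        generalize 4 * (∑ x, ω x) = c
        rw [Finset.sum_comm, Finset.mul_sum]
        refine Finset.sum_congr rfl fun b _ => ?_
        rw [Finset.mul_sum, Finset.mul_sum]
    _ ≤ 4 * (∑ x, ω x) * ∑ b, ω b * 6561 := by
        refine mul_le_mul_of_nonneg_left (Finset.sum_le_sum fun b _ =>
          mul_le_mul_of_nonneg_left ?_ (hω b)) (by positivity)
        rw [hB]
        exact FB2_sq_labels b p hp hp1 good h1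
    _ = (162 * ∑ x, ω x) ^ 2 := by
        rw [← Finset.sum_mul]
        ring

/-- compact support: increments vanish off `S` -/
theorem start2_supp {A : Matrix (Tor N) (Tor N) ℝ} (hs : A.IsSymm)
    (hA : ∀ x y, |A x y| ≤ AT N x y)
    {p : Λ → ℝ} (hp : ∀ l, 0 ≤ p l) (hp1 : ∑ l, p l = 1) {good : Λ} (h1 : 1 - p good ≤ 1 / 8192)
    {ν : Λ → Measure ℝ} (hν : ∀ k, IsProbabilityMeasure (ν k)) (E : ℝ)
    {e : (Tor N → Λ) → Tor N → ℝ} (he : ∀ l x, 0 < e l x)
    (hbig : ∀ l x, l x = good → 32 / 3 ≤ e l x)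
    {κ : Type*} [Fintype κ] {F : κ → Tor N → ℝ} {Λf : ℝ} {S : Finset (Tor N)}
    (hF : ∀ x y, ∑ k, (F k x - F k y) ^ 2 ≤ Λf ^ 2 * (nrm (x - y) : ℝ) ^ 2)
    (hS : ∀ k, ∀ x ∉ S, F k x = 0) :
    AvG p ν E e (fun _ W => (∑ k, En A W (F k)) ^ 2) ≤ (162 * (Λf ^ 2 * S.card)) ^ 2 := by
  classical
  have h := start2 hs hA hp hp1 h1 hν E he hbig (F := F)
    (ω := fun x => if x ∈ S then Λf ^ 2 else 0) (fun x => by split_ifs <;> positivity) ?_
  · refine h.trans (le_of_eq ?_)
    rw [← Finset.sum_filter, Finset.sum_const, Finset.filter_mem_eq_inter, Finset.univ_inter,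
      nsmul_eq_mul]
    ring
  · intro x y
    by_cases hx : x ∈ S
    · refine (hF x y).trans (mul_le_mul_of_nonneg_right ?_ (sq_nonneg _))
      simp only [hx, if_true]
      split_ifs <;> nlinarith [sq_nonneg Λf]
    · by_cases hy : y ∈ S
      · refine (hF x y).trans (mul_le_mul_of_nonneg_right ?_ (sq_nonneg _))
        simp only [hx, hy, if_true, if_false]
        linarith
      · simp only [hx, hy, if_false]
        have : ∀ k, (F k x - F k y) ^ 2 = 0 := by
          intro k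
          rw [hS k x hx, hS k y hy]
          norm_num
        simp [this]

end final

end torus

end P365T2.H942
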